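import Vale.Agent.N292.Iso
import Mathlib.AlgebraicGeometry.AlgClosed.Basic

/-!
# The Lie algebra of contact vector fields and the isomorphisms of contact Fano manifolds
-/

open AlgebraicGeometry CategoryTheory TopologicalSpace Opposite Polynomial

namespace Vale.Agent.P292Z

attribute [local instance] MvPolynomial.gradedAlgebra

variable {g : Type} [LieRing g] [LieAlgebra ℂ g]

/-- `ψ` is an isomorphism onto the Lie algebra of contact vector fields. -/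
structure CAlg {X : Scheme.{0}} [X.Over SpecC] (F : Distribution X)
    (ψ : g →ₗ[ℂ] ∀ U : X.affineOpens, VF X U) : Prop where
  inj : Function.Injective ψ
  range : ∀ v : ∀ U : X.affineOpens, VF X U,
    ((∀ (U V : X.affineOpens) (h : V.1 ≤ 𝟙 X ⁻¹ᵁ U.1), Related (𝟙 X) h (v V) (v U)) ∧
      ∀ U w, w ∈ F.sec U → ⁅v U, w⁆ ∈ F.sec U) ↔ ∃ a, ψ a = v
  lie : ∀ a b U, ψ ⁅a, b⁆ U = ⁅ψ a U, ψ b U⁆

/-- `e` maps `w` to `v`. -/
def Push {X Y : Scheme.{0}} [X.Over SpecC] [Y.Over SpecC] (e : X ⟶ Y)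
    (w : ∀ U : X.affineOpens, VF X U) (v : ∀ U : Y.affineOpens, VF Y U) : Prop :=
  ∀ (U : Y.affineOpens) (V : X.affineOpens) (h : V.1 = e ⁻¹ᵁ U.1), Related e h.le (w V) (v U)

variable {Z : Scheme.{0}} [IsIntegral Z] [Z.Over SpecC] {F : Distribution Z} {d : ℕ}

namespace Atlas

variable {A : Atlas F d} {P : A.R →ₗ[ℂ] A.R →ₗ[ℂ] A.R} {φ : g →ₗ[ℂ] A.R} {O : Set g}

theorem hm_add (a b : g) : hm φ (a + b) = hm φ a + hm φ b := by
  rw [hm, map_add, AddMemClass.coe_add, coeff_add, ham_add]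
  rfl

theorem hm_smul (r : ℂ) (a : g) : hm φ (r • a) = r • hm φ a := by
  rw [hm, map_smul, SetLike.val_smul, coeff_smul, ham_smul]
  rfl

theorem IsLie.hm_lie (hP : IsBr P) (hφ : IsLie P φ) (a b : g) :
    hm φ ⁅a, b⁆ = ⁅hm φ a, hm φ b⁆ := by
  rw [hm, hφ.lie, hP.ham_lie (hφ.mem a) (hφ.mem b)]
  rfl

theorem eq_of_ham {r s : A.R} (hr : r ∈ A.grade 1) (hs : s ∈ A.grade 1)
    (h : A.ham (r.1.coeff 1) = A.ham (s.1.coeff 1)) : r = s :=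
  Subtype.ext (by rw [eq_monomial hr, eq_monomial hs, ham_injective h])

theorem exists_psi' (φ : g →ₗ[ℂ] A.R) :
    ∃ ψ : g →ₗ[ℂ] ∀ U : Z.affineOpens, VF Z U, ∀ a, Rep (ψ a) (hm φ a) := by
  choose ψ hψ using fun a => exists_rep (reg_hm (φ := φ) a)
  exact ⟨{ toFun := ψ
           map_add' := fun a b => (hψ _).unique (hm_add (φ := φ) a b ▸ (hψ a).add (hψ b))
           map_smul' := fun r a => (hψ _).unique (hm_smul (φ := φ) r a ▸ (hψ a).smul r) }, hψ⟩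

theorem exists_grade_one {v : ∀ U : Z.affineOpens, VF Z U}
    (h1 : ∀ (U V : Z.affineOpens) (h : V.1 ≤ 𝟙 Z ⁻¹ᵁ U.1), Related (𝟙 Z) h (v V) (v U))
    (h2 : ∀ U w, w ∈ F.sec U → ⁅v U, w⁆ ∈ F.sec U) :
    ∃ r ∈ A.grade 1, Rep v (A.ham (r.1.coeff 1)) := by
  obtain ⟨D, hD⟩ := exists_rep_of_related h1
  have h3 : A.IsCt D := (isCt_iff_of_rep hD).2 h2
  refine ⟨mono fun x => secAt_α (hD.reg x), mono_mem _, ?_⟩
  change Rep v (A.ham ((monomial 1 (-A.α D)).coeff 1))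
  rw [coeff_monomial_same, ← h3.eq_ham]
  exact hD

theorem calg_of_rep (hP : IsBr P) (hφ : IsLie P φ) (hi : Function.Injective φ)
    {ψ : g →ₗ[ℂ] ∀ U : Z.affineOpens, VF Z U} (hψ : ∀ a, Rep (ψ a) (hm φ a)) : CAlg F ψ := by
  refine ⟨fun a b h => hi (eq_of_ham (hφ.mem a) (hφ.mem b) ((hψ a).eq (h ▸ hψ b))),
    fun v => ⟨fun ⟨h1, h2⟩ => ?_, ?_⟩, fun a b U => ?_⟩
  · obtain ⟨r, hr, hv⟩ := exists_grade_one (A := A) h1 h2
    obtain ⟨a, rfl⟩ : r ∈ LinearMap.range φ := hφ.range ▸ hr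
    exact ⟨a, (hψ a).unique hv⟩
  · rintro ⟨a, rfl⟩
    exact ⟨(hψ a).related, (isCt_iff_of_rep (hψ a)).1 (A.isCt_ham _)⟩
  · exact congrFun ((hψ _).unique (hφ.hm_lie hP a b ▸ (hψ a).lie (hψ b))) U

theorem exists_lie_of_calg (hP : IsBr P) (hgen : Algebra.adjoin ℂ (A.grade 1 : Set A.R) = ⊤)
    {ψ : g →ₗ[ℂ] ∀ U : Z.affineOpens, VF Z U} (hψ : CAlg F ψ) :
    ∃ φ : g →ₗ[ℂ] A.R, IsLie P φ ∧ Function.Injective φ ∧ ∀ a, Rep (ψ a) (hm φ a) := by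
  choose φ h1 h2 using fun a => exists_grade_one (A := A) ((hψ.range _).2 ⟨a, rfl⟩).1
    ((hψ.range _).2 ⟨a, rfl⟩).2
  let φ' : g →ₗ[ℂ] A.R :=
    { toFun := φ
      map_add' := fun a b => eq_of_ham (h1 _) (add_mem (h1 a) (h1 b)) (by
        rw [AddMemClass.coe_add, coeff_add, ham_add]
        exact (h2 _).eq (map_add ψ a b ▸ (h2 a).add (h2 b)))
      map_smul' := fun r a => eq_of_ham (h1 _) (Submodule.smul_mem _ r (h1 a)) (by
        rw [RingHom.id_apply, SetLike.val_smul, coeff_smul, ham_smul]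
        exact (h2 _).eq (map_smul ψ r a ▸ (h2 a).smul r)) }
  refine ⟨φ', ⟨le_antisymm ?_ fun r hr => ?_, fun a b => ?_, hgen⟩, fun a b h => hψ.inj ?_, h2⟩
  · rintro _ ⟨a, rfl⟩
    exact h1 a
  · obtain ⟨v, hv⟩ := exists_rep fun x => reg_ham (secAt_coeff r 1 x)
    obtain ⟨a, rfl⟩ := (hψ.range v).1 ⟨hv.related, (isCt_iff_of_rep hv).1 (A.isCt_ham _)⟩
    exact ⟨a, eq_of_ham (h1 a) hr ((h2 a).eq hv)⟩
  · refine eq_of_ham (h1 _) (hP.degree 1 1 1 rfl _ (h1 a) _ (h1 b)) ?_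
    refine Eq.trans ?_ (hP.ham_lie (h1 a) (h1 b)).symm
    exact (h2 _).eq ((funext (hψ.lie a b) : ψ ⁅a, b⁆ = _) ▸ (h2 a).lie (h2 b))
  · have h3 : φ a = φ b := h
    exact (h2 a).unique (h3 ▸ h2 b)

variable [FiniteDimensional ℂ g] [LieAlgebra.IsSimple ℂ g] {e : Z ≅ projOrbit O}
  {ψ : g →ₗ[ℂ] ∀ U : Z.affineOpens, VF Z U}

theorem Good.injective (_ : Good φ O e) : Function.Injective (e.hom ≫ incl O) := by
  have hι : IsClosedImmersion (incl O) :=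
    inferInstanceAs (IsClosedImmersion (projIdeal O).subschemeι)
  exact (e.hom ≫ incl O).isClosedEmbedding.injective

theorem Good.exists_pt [IsProper (Z ↘ SpecC)] (H : Pres P φ O) (he : Good φ O e) {x : Z} {z : g}
    (hz : z ∈ O) (hx : IsPoint ((e.hom ≫ incl O) x) z) :
    ∃ y : A.Pt, y.x = x ∧ ∀ a, y.p (φ a) = killingForm ℂ g a z := by
  obtain ⟨y, hy⟩ := H.exists_pt hz
  exact ⟨y, he.injective ((he.emb.isPoint H.ample H.lie y hy).unique hx), hy⟩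

theorem Good.hasTangent [IsProper (Z ↘ SpecC)] (H : Pres P φ O) (he : Good φ O e)
    (hψ : ∀ a, Rep (ψ a) (hm φ a)) (a : g) (U : Z.affineOpens) {x : Z} (hxU : x ∈ U.1) {z : g}
    (hz : z ∈ O) (hx : IsPoint ((e.hom ≫ incl O) x) z) :
    HasTangent (e.hom ≫ incl O) (ψ a U) x z ⁅z, a⁆ := by
  obtain ⟨y, rfl, hy⟩ := he.exists_pt H hz hx
  have i : U.1 ≤ 𝟙 Z ⁻¹ᵁ U.1 := le_rfl
  refine (he.emb.hasTangent_iff H.ample H.lie (𝟙 Z) _ (Category.id_comp _) (Category.id_comp _) i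
    ((hψ a).related U U i) i ((hψ a).related U U i) y hxU hxU z _).2 fun i j hj => ?_
  have h1 := (hx 1 _ (MvPolynomial.isHomogeneous_X ℂ j)).1 (hj hxU)
  rw [MvPolynomial.eval_X] at h1
  rw [hψ a]
  exact y.v_hm_ratio H.br H.lie hy a i h1

variable {Z' : Scheme.{0}} [IsIntegral Z'] [Z'.Over SpecC] {F' : Distribution Z'} {d' : ℕ}
  {A' : Atlas F' d'} {P' : A'.R →ₗ[ℂ] A'.R →ₗ[ℂ] A'.R} {φ' : g →ₗ[ℂ] A'.R}
  {e' : Z' ≅ projOrbit O} {ψ' : g →ₗ[ℂ] ∀ U : Z'.affineOpens, VF Z' U}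

theorem Good.trans_base (he : Good φ O e) (he' : Good φ' O e') :
    (e ≪≫ e'.symm).hom ≫ (Z' ↘ SpecC) = Z ↘ SpecC := by
  rw [← he'.base, ← he.base, Iso.trans_hom, Iso.symm_hom, Category.assoc, Iso.inv_hom_id_assoc]

theorem Good.trans_car (he : Good φ O e) (he' : Good φ' O e') :
    Car (e ≪≫ e'.symm).hom F fun U => F'.sec U :=
  Car.cancel (by simp) he'.base he.car he'.car

theorem Good.trans_push [IsProper (Z ↘ SpecC)] [IsProper (Z' ↘ SpecC)] (H : Pres P φ O)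
    (he : Good φ O e) (hψ : ∀ a, Rep (ψ a) (hm φ a)) (H' : Pres P' φ' O) (he' : Good φ' O e')
    (hψ' : ∀ a, Rep (ψ' a) (hm φ' a)) (a : g) : Push (e ≪≫ e'.symm).hom (ψ a) (ψ' a) := by
  have := compactSpace_of_proper (Z := Z)
  intro U V hV
  set σ := (e ≪≫ e'.symm).hom
  have hσ : σ ≫ e'.hom ≫ incl O = e.hom ≫ incl O := by simp [σ]
  obtain ⟨w, hw⟩ := exists_related_left σ (he.trans_base he') hV (ψ' a U)
  suffices h : ψ a V = w from h ▸ hw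
  refine vf_ext fun hη => ?_
  rw [hψ a, eq_comm, ← sub_eq_zero]
  refine A.der_eq_zero hη fun y hy f hf => ?_
  obtain ⟨z, hz, hyz⟩ := H.exists_mem y
  obtain ⟨b, hb⟩ := y.exists_coord_ne H.ample H.lie hyz
  have hxz : IsPoint ((e'.hom ≫ incl O) (σ y.x)) z := by
    rw [← Scheme.Hom.comp_apply, hσ]
    exact he.emb.isPoint H.ample H.lie y hyz
  have h1 : σ y.x ∈ (e'.hom ≫ incl O) ⁻¹ᵁ Proj.basicOpen (forms g) (MvPolynomial.X b) :=
    (hxz 1 _ (MvPolynomial.isHomogeneous_X ℂ b)).2 (by rwa [MvPolynomial.eval_X])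
  obtain ⟨U', hU', hU'le⟩ := exists_affine_le
    (W := U.1 ⊓ (e'.hom ≫ incl O) ⁻¹ᵁ Proj.basicOpen (forms g) (MvPolynomial.X b)) ⟨hV.le hy, h1⟩
  have i : U'.1 ≤ 𝟙 Z' ⁻¹ᵁ U.1 := hU'le.trans inf_le_left
  have h2 := (he.emb.hasTangent_iff H.ample H.lie σ _ hσ (he.trans_base he') hV.le hw i
    ((hψ' a).related U U' i) y hy hU' z _).1 (he'.hasTangent H' hψ' a U' hU' hz hxz)
  refine y.v_D_eq_zero H.ample H.lie hyz ((reg_ext hη w hy).sub (reg_hm a _)) hb (fun k => ?_) hf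
  have h3 := ((y.genAt_sg H.lie hyz b).2 hb).div_mem (secAt_sg (φ := φ) k y.x)
  rw [Derivation.sub_apply, y.e.sub (reg_ext hη w hy _ h3) (reg_hm a _ _ h3),
    y.v_hm_ratio H.br H.lie hyz a k hb, sub_eq_zero]
  exact h2 k b (hU'le.trans inf_le_right)

omit [FiniteDimensional ℂ g] [LieAlgebra.IsSimple ℂ g] in
theorem p_eq_zero_of_push (hφ : IsLie P φ) (hψ : ∀ a, Rep (ψ a) (hm φ a)) (hφ' : IsLie P' φ')
    (hψ' : ∀ a, Rep (ψ' a) (hm φ' a)) {σ : Z ⟶ Z'} [IsIso σ]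
    (h1 : σ ≫ (Z' ↘ SpecC) = Z ↘ SpecC) (h2 : Car σ F fun U => F'.sec U) {a : g}
    (h3 : Push σ (ψ a) (ψ' a)) (y : A.Pt) (y' : A'.Pt) (hy : σ y.x = y'.x)
    (h0 : y'.p (φ' a) = 0) : y.p (φ a) = 0 := by
  let U := y'.c.U
  let V : Z.affineOpens := ⟨σ ⁻¹ᵁ U.1, U.2.preimage_of_isIso σ⟩
  have hyV : y.x ∈ V.1 := by
    change σ y.x ∈ U.1
    rw [hy]
    exact y'.mem
  have hη := gen_mem hyV
  obtain ⟨w', hw'⟩ := exists_down (U := U) y'.c.hU (D := hm φ' a - y'.c.θ (hm φ' a) • y'.c.e)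
    fun x hx => (reg_hm a x).sub ((y'.c.e_reg x hx).smul (y'.c.θ_mem hx (reg_hm a x)))
  have h4 : w' ∈ F'.sec U := by
    rw [A'.mem_sec_iff y'.c.hU _ y'.c, hw', map_sub, map_smul, y'.c.θe, smul_eq_mul, mul_one,
      sub_self]
  obtain ⟨w, hw⟩ := exists_related_left σ h1 (U := U) (V := V) rfl w'
  have h5 : w ∈ F.sec V := (h2 U V rfl w w' hw).2 h4
  rw [A.mem_sec_iff hη _ y.c] at h5
  have h6 := y.v_θ_of_toK hyV ((reg_hm (φ := φ) a _).sub (reg_ext hη w hyV)) fun f => by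
    obtain ⟨f, rfl⟩ := (appLE_bijective σ (U := U.1) (V := V.1) rfl).2 f
    rw [← hψ a V hη, ← ext_sub, ext_toK, Derivation.sub_apply, h3 U V rfl f, hw f, ← map_sub,
      toK_appLE]
    by_contra hcon
    have h7 := (y.e.unit (toK_mem hyV _ _)).2 hcon
    have h8 := (isU_pb σ (W := U.1) hyV _).1 h7
    rw [hy, ← isU_toK y'.mem y'.c.hU, ← Derivation.sub_apply, ← ext_toK, ext_sub, hψ' a, hw',
      sub_sub_cancel, Derivation.smul_apply, smul_eq_mul] at h8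
    have h9 := y'.c.θ_mem y'.mem (reg_hm (φ := φ') a _)
    exact (y'.e.unit h9).1 (h8.of_mul_left h9 (y'.c.e_reg _ y'.mem _ (toK_mem y'.mem _ _)))
      ((y'.v_θ_hm hφ' a).2 h0)
  rw [map_sub, h5, sub_zero] at h6
  exact (y.v_θ_hm hφ a).1 h6

theorem Good.apply_eq [IsProper (Z ↘ SpecC)] [IsProper (Z' ↘ SpecC)] (H : Pres P φ O)
    (he : Good φ O e) (hψ : ∀ a, Rep (ψ a) (hm φ a)) (H' : Pres P' φ' O) (he' : Good φ' O e')
    (hψ' : ∀ a, Rep (ψ' a) (hm φ' a)) {σ : Z ⟶ Z'} [IsIso σ]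
    (h1 : σ ≫ (Z' ↘ SpecC) = Z ↘ SpecC) (h2 : Car σ F fun U => F'.sec U)
    (h3 : ∀ a, Push σ (ψ a) (ψ' a)) {x : Z} (hx : IsClosed {x}) :
    (e'.hom ≫ incl O) (σ x) = (e.hom ≫ incl O) x := by
  obtain ⟨y, rfl⟩ := exists_pt_of_closed (A := A) hx
  have hx' : IsClosed {σ y.x} := by
    rw [← Set.image_singleton]
    exact σ.homeomorph.isClosedMap _ hx
  obtain ⟨y', hy⟩ := exists_pt_of_closed (A := A') hx'
  obtain ⟨z, -, hz⟩ := H.exists_mem y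
  obtain ⟨b', hb'⟩ : ∃ b', y'.p (φ' b') = 1 := by
    obtain ⟨z', -, hz'⟩ := H'.exists_mem y'
    obtain ⟨b, hb⟩ := y'.exists_coord_ne H'.ample H'.lie hz'
    exact ⟨(coord z' b)⁻¹ • dualB g b, by
      rw [map_smul, map_smul, hz', kil_dualB, smul_eq_mul, inv_mul_cancel₀ hb]⟩
  have h4 : ∀ a, y.p (φ a) = y'.p (φ' a) * y.p (φ b') := fun a => by
    have h5 := p_eq_zero_of_push H.lie hψ H'.lie hψ' h1 h2 (h3 (a - y'.p (φ' a) • b')) y y' hy.symm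
      (by rw [map_sub, map_sub, map_smul, map_smul, hb', smul_eq_mul, mul_one, sub_self])
    rwa [map_sub, map_sub, map_smul, map_smul, smul_eq_mul, sub_eq_zero] at h5
  have h5 : y.p (φ b') ≠ 0 := by
    intro h0
    obtain ⟨b, hb⟩ := y.exists_coord_ne H.ample H.lie hz
    exact hb (by rw [← kil_dualB, ← hz, h4, h0, mul_zero])
  let y'' : A'.Pt := ⟨y'.x, y'.e, y'.γ * y.p (φ b'), mul_ne_zero y'.hγ h5⟩
  have h6 : ∀ a, y''.p (φ' a) = killingForm ℂ g a z := fun a => by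
    rw [← hz, h4, y''.p_one H'.lie, y'.p_one H'.lie, mul_assoc]
  rw [← hy]
  exact (he'.emb.isPoint H'.ample H'.lie y'' h6).unique (he.emb.isPoint H.ample H.lie y hz)

theorem Good.iso_unique [IsProper (Z ↘ SpecC)] [IsProper (Z' ↘ SpecC)] (H : Pres P φ O)
    (he : Good φ O e) (hψ : ∀ a, Rep (ψ a) (hm φ a)) (H' : Pres P' φ' O) (he' : Good φ' O e')
    (hψ' : ∀ a, Rep (ψ' a) (hm φ' a)) {σ : Z ≅ Z'}
    (h1 : σ.hom ≫ (Z' ↘ SpecC) = Z ↘ SpecC) (h2 : Car σ.hom F fun U => F'.sec U)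
    (h3 : ∀ a, Push σ.hom (ψ a) (ψ' a)) : σ = e ≪≫ e'.symm := by
  have : LocallyOfFiniteType (σ.hom ≫ (Z' ↘ SpecC)) := by
    rw [h1]
    infer_instance
  refine Iso.ext (ext_of_apply_eq (Z' ↘ SpecC) Set.univ isClosed_univ.isLocallyClosed dense_univ
    (fun x _ hx => he'.injective ?_) (h1.trans (he.trans_base he').symm))
  rw [he.apply_eq H hψ H' he' hψ' h1 h2 h3 hx, ← Scheme.Hom.comp_apply]
  simp

end Atlas

end Vale.Agent.P292Z
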