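import Vale.Agent.P292Z.Stmt

/-!
# Contact vector fields and isomorphisms of contact manifolds
-/

open AlgebraicGeometry CategoryTheory

namespace Vale.Agent.N292

open Vale.Agent.P292V

section Affine

variable {A : Type} [CommRing A] [Algebra ℂ A]

/-- The vector field `v` preserves `F`: its bracket with a section of `F` is a section of `F`. -/
def Preserves (F : Fields A) (v : Der A) : Prop := ∀ w ∈ F, ⁅v, w⁆ ∈ F

/-- `ψ` is a homomorphism of Lie algebras from `g` to the vector fields on `Spec A`. -/
def IsLieHom {g : Type} [LieRing g] [LieAlgebra ℂ g] (ψ : g → Der A) : Prop :=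
  IsLinearMap ℂ ψ ∧ ∀ a b, ψ ⁅a, b⁆ = ⁅ψ a, ψ b⁆

/-- `Spec A` is the affine space with coordinates `u, p i, q i`, and `F` is the standard contact
structure, the kernel of the form `du - ∑ (p i dq i - q i dp i)`. -/
def IsStandard (n : ℕ) (F : Fields A) : Prop :=
  ∃ (u : A) (p q : Fin n → A), Function.Bijective (MvPolynomial.aeval (R := ℂ)
    fun o : Option (Fin n ⊕ Fin n) => o.elim u (Sum.elim p q)) ∧
      ∀ v : Der A, v ∈ F ↔ v u = ∑ i, (p i * v (q i) - q i * v (p i))

end Affine

variable {X Y : Scheme.{0}} [X.Over SpecC] [Y.Over SpecC]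

/-- `(X, F)` is a contact Fano manifold of dimension `2 n + 1 ≥ 3`. -/
structure ContactFano (n : ℕ) (F : Distribution X) : Prop where
  pos : 1 ≤ n
  connected : ConnectedSpace X
  proper : IsProper (X ↘ SpecC)
  smooth : SmoothOfRelativeDimension (2 * n + 1) (X ↘ SpecC)
  contact : IsContact F
  fano : IsFano X (2 * n + 1)

variable (X) in
/-- The families of vector fields `v U` on the affine open sets `U`. -/
abbrev Family : Type := ∀ U : X.affineOpens, VF X U

/-- `v` is a global vector field (the `v U` are compatible with the restrictions) which preserves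
`F`. -/
def IsContactField (F : Distribution X) (v : Family X) : Prop :=
  (∀ (U V : X.affineOpens) (h : V.1 ≤ U.1), Related (res h) (v V) (v U)) ∧
    ∀ U : X.affineOpens, Preserves (F.sec U) (v U)

/-- `ψ` is an isomorphism of Lie algebras from `g` onto the contact vector fields of `(X, F)`. -/
def IsContactAlgebra (F : Distribution X) {g : Type} [LieRing g] [LieAlgebra ℂ g]
    (ψ : g → Family X) : Prop :=
  (∀ U, IsLieHom fun a => ψ a U) ∧ Function.Injective ψ ∧ Set.range ψ = {v | IsContactField F v}

/-- `e` is an isomorphism over `ℂ` which carries `F` to `G`. -/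
def IsContactIso (e : X ≅ Y) (F : Distribution X) (G : Distribution Y) : Prop :=
  e.hom ≫ (Y ↘ SpecC) = X ↘ SpecC ∧ Carries e F fun U => {v | (G.sec U).Mem v}

/-- The isomorphism `e` maps the vector field `w` to the vector field `v`. -/
def Pushes (e : X ≅ Y) (w : Family X) (v : Family Y) : Prop :=
  ∀ (U : Y.affineOpens) (V : X.affineOpens) (h : V.1 = pre e.hom U.1),
    Related (pull e.hom h.le) (w V) (v U)

end Vale.Agent.N292
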