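import Vale.Agent.N292.Dar
import Vale.Agent.N292.Defs
import Vale.Agent.P292Z.Bridge

/-!
# Translation between the two sets of definitions
-/

open AlgebraicGeometry CategoryTheory TopologicalSpace

namespace Vale.Agent.P292Z

attribute [local instance 2000] algebraSections

variable {X Y : Scheme.{0}} [X.Over SpecC] [Y.Over SpecC]

theorem contactField_iff (F : P292V.Distribution X) (v : ∀ U : X.affineOpens, VF X U) :
    N292.IsContactField F v ↔
      ((∀ (U V : X.affineOpens) (h : V.1 ≤ 𝟙 X ⁻¹ᵁ U.1), Related (𝟙 X) h (v V) (v U)) ∧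
        ∀ U w, w ∈ (toDist F).sec U → ⁅v U, w⁆ ∈ (toDist F).sec U) :=
  and_congr_left fun _ => forall₃_congr fun U V i => (related_res i (v V) (v U)).symm

theorem CAlg.isContactAlgebra {g : Type} [LieRing g] [LieAlgebra ℂ g] {F : P292V.Distribution X}
    {ψ : g →ₗ[ℂ] ∀ U : X.affineOpens, VF X U} (H : CAlg (toDist F) ψ) :
    N292.IsContactAlgebra F ψ :=
  ⟨fun U => ⟨⟨fun a b => congrFun (map_add ψ a b) U, fun c a => congrFun (map_smul ψ c a) U⟩,
    fun a b => H.lie a b U⟩, H.inj,
    Set.ext fun v => ((contactField_iff F v).trans (H.range v)).symm⟩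

theorem exists_calg {g : Type} [LieRing g] [LieAlgebra ℂ g] {F : P292V.Distribution X}
    {ψ : g → ∀ U : X.affineOpens, VF X U} (H : N292.IsContactAlgebra F ψ) :
    ∃ χ : g →ₗ[ℂ] ∀ U : X.affineOpens, VF X U, ⇑χ = ψ ∧ CAlg (toDist F) χ :=
  ⟨{ toFun := ψ
     map_add' := fun a b => funext fun U => (H.1 U).1.map_add a b
     map_smul' := fun c a => funext fun U => (H.1 U).1.map_smul c a }, rfl, H.2.1,
    fun v => (contactField_iff F v).symm.trans (Set.ext_iff.1 H.2.2 v).symm,
    fun a b U => (H.1 U).2 a b⟩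

theorem contactIso_iff (e : X ≅ Y) (F : P292V.Distribution X) (G : P292V.Distribution Y) :
    N292.IsContactIso e F G ↔ e.hom ≫ (Y ↘ SpecC) = X ↘ SpecC ∧
      Car e.hom (toDist F) fun U => (toDist G).sec U := Iff.rfl

theorem pushes_iff (e : X ≅ Y) (w : N292.Family X) (v : N292.Family Y) :
    N292.Pushes e w v ↔ Push e.hom w v := Iff.rfl

end Vale.Agent.P292Z
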