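import Vale.Agent.P292.X442.DarDef
import Vale.Agent.P292.H442.Iso
import Mathlib.Algebra.MvPolynomial.PDeriv
import Mathlib.LinearAlgebra.Matrix.Nondegenerate
import Mathlib.LinearAlgebra.Matrix.BilinearForm

/-!
# Symplectic bases, the Jacobian criterion, standard Darboux data
-/

namespace Vale.Agent.N292

theorem exists_symplectic {V : Type} [AddCommGroup V] [Module ℂ V] [FiniteDimensional ℂ V]
    (B : V →ₗ[ℂ] V →ₗ[ℂ] ℂ) (halt : ∀ v, B v v = 0) (hnd : ∀ v, (∀ w, B v w = 0) → v = 0) :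
    ∃ (n : ℕ) (p q : Fin n → V), ((∀ i j, B (p i) (p j) = 0) ∧ (∀ i j, B (q i) (q j) = 0) ∧
      ∀ i j, B (p i) (q j) = if i = j then 1 else 0) ∧
      ∀ v, v = ∑ i, (B v (q i) • p i - B v (p i) • q i) := by
  have hskew : ∀ a b, B a b = -B b a := fun a b => by
    have h := halt (a + b)
    simp only [map_add, LinearMap.add_apply, halt] at h
    linear_combination h
  by_contra hcon
  push Not at hcon
  have key : ∀ n : ℕ, ∃ p q : Fin n → V, (∀ i j, B (p i) (p j) = 0) ∧ (∀ i j, B (q i) (q j) = 0) ∧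
      ∀ i j, B (p i) (q j) = if i = j then 1 else 0 := by
    intro n
    induction n with
    | zero => exact ⟨Fin.elim0, Fin.elim0, fun i => i.elim0, fun i => i.elim0, fun i => i.elim0⟩
    | succ n ih =>
      obtain ⟨p, q, h1, h2, h3⟩ := ih
      obtain ⟨v, hv⟩ := hcon n p q ⟨h1, h2, h3⟩
      have h4 : ∀ i j, B (q i) (p j) = if i = j then -1 else 0 := fun i j => by
        rw [hskew, h3]
        by_cases h : i = j
        · simp [h]
        · simp [h, Ne.symm h]
      let π : V → V := fun v => v - ∑ i, (B v (q i) • p i - B v (p i) • q i)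
      have h5 : ∀ v j, B (π v) (p j) = 0 := fun v j => by
        simp [π, map_sum, LinearMap.sum_apply, h1, h4]
      have h6 : ∀ v j, B (π v) (q j) = 0 := fun v j => by
        simp [π, map_sum, LinearMap.sum_apply, h2, h3]
      obtain ⟨w, hw⟩ : ∃ w, B (π v) w = 1 := by
        by_contra h
        push Not at h
        refine hv (sub_eq_zero.1 (hnd (π v) fun w => ?_))
        by_contra h0
        exact h ((B (π v) w)⁻¹ • w) (by rw [map_smul, smul_eq_mul, inv_mul_cancel₀ h0])
      have h7 : B (π v) (π w) = 1 := by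
        conv_lhs => rw [show π w = w - ∑ i, (B w (q i) • p i - B w (p i) • q i) from rfl]
        simp [map_sum, h5, h6, hw]
      refine ⟨Fin.cons (π v) p, Fin.cons (π w) q, fun i j => ?_, fun i j => ?_, fun i j => ?_⟩
      · refine Fin.cases ?_ (fun i => ?_) i <;> refine Fin.cases ?_ (fun j => ?_) j
        · exact halt _
        · exact h5 _ _
        · exact (hskew _ _).trans (neg_eq_zero.2 (h5 _ _))
        · exact h1 _ _
      · refine Fin.cases ?_ (fun i => ?_) i <;> refine Fin.cases ?_ (fun j => ?_) j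
        · exact halt _
        · exact h6 _ _
        · exact (hskew _ _).trans (neg_eq_zero.2 (h6 _ _))
        · exact h2 _ _
      · refine Fin.cases ?_ (fun i => ?_) i <;> refine Fin.cases ?_ (fun j => ?_) j
        · exact h7
        · rw [if_neg (Fin.succ_ne_zero j).symm]
          exact h6 _ _
        · rw [if_neg (Fin.succ_ne_zero i)]
          exact (hskew _ _).trans (neg_eq_zero.2 (h5 _ _))
        · simpa using h3 i j
  obtain ⟨p, q, -, -, h3⟩ := key (Module.finrank ℂ V + 1)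
  have h : LinearIndependent ℂ p := by
    rw [Fintype.linearIndependent_iff]
    intro c hc j
    have h1 := congrArg (fun v => B v (q j)) hc
    simpa [map_sum, LinearMap.sum_apply, h3] using h1
  have h1 := h.fintype_card_le_finrank
  rw [Fintype.card_fin] at h1
  omega

open MvPolynomial in
theorem aeval_injective_of_dual {K σ : Type} [CommRing K] [Nontrivial K] [Algebra ℂ K]
    [DecidableEq σ] (t : σ → K) (D : σ → Derivation ℂ K K)
    (hD : ∀ i j, D i (t j) = if i = j then 1 else 0) :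
    Function.Injective (aeval t : MvPolynomial σ ℂ →ₐ[ℂ] K) := by
  have h1 : ∀ (i) (G : MvPolynomial σ ℂ), D i (aeval t G) = aeval t (pderiv i G) := by
    intro i G
    induction G using MvPolynomial.induction_on with
    | C a => simp
    | add p q hp hq => simp only [map_add, hp, hq]
    | mul_X p j hp =>
      simp only [map_mul, Derivation.leibniz, aeval_X, hp, hD, smul_eq_mul, map_add, pderiv_X,
        Pi.single_apply, eq_comm (a := j)]
      split_ifs <;> simp
  have key : ∀ (n : ℕ) (G : MvPolynomial σ ℂ), aeval t G = 0 →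
      (∀ s : σ →₀ ℕ, n ≤ s.degree → coeff s G = 0) → G = 0 := by
    intro n
    induction n with
    | zero => exact fun G _ h => MvPolynomial.ext _ _ fun s => h s (Nat.zero_le _)
    | succ n ih =>
      intro G hG h
      have h2 : ∀ i, pderiv i G = 0 := fun i => ih _ (by rw [← h1, hG, map_zero]) fun s hs => by
        rw [coeff_pderiv, h _ (by rw [map_add, Finsupp.degree_single]; omega), zero_mul]
      have h3 : G = C (coeff 0 G) := by
        refine MvPolynomial.ext _ _ fun s => ?_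
        by_cases hs : s = 0
        · rw [hs, coeff_zero_C]
        · obtain ⟨i, hi⟩ := Finsupp.ne_iff.1 hs
          have h4 := congrArg (coeff (s - Finsupp.single i 1)) (h2 i)
          rw [coeff_pderiv, coeff_zero, tsub_add_cancel_of_le
            (Finsupp.single_le_iff.2 (Nat.one_le_iff_ne_zero.2 hi))] at h4
          rw [coeff_C, if_neg (Ne.symm hs)]
          exact (mul_eq_zero.1 h4).resolve_right (Nat.cast_add_one_ne_zero _)
      rw [h3, aeval_C, map_eq_zero] at hG
      rw [h3, hG, C_0]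
  rw [injective_iff_map_eq_zero]
  exact fun G hG => key (G.totalDegree + 1) G hG fun s hs =>
    coeff_eq_zero_of_totalDegree_lt (by rw [← Finsupp.degree_apply]; omega)

variable {R : Type} [CommRing R] [Algebra ℂ R] {𝒜 : ℕ → Submodule ℂ R} {P : R →ₗ[ℂ] R →ₗ[ℂ] R}

variable (𝒜 P) in
/-- Standard Darboux data. -/
structure Dar {n : ℕ} (e h : R) (p q : Fin n → R) : Prop where
  e1 : e ∈ 𝒜 1
  h1 : h ∈ 𝒜 1
  p1 : ∀ i, p i ∈ 𝒜 1
  q1 : ∀ i, q i ∈ 𝒜 1
  he : P h e = (2 : ℂ) • e
  hp : ∀ i, P h (p i) = p i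
  hq : ∀ i, P h (q i) = q i
  ep : ∀ i, P e (p i) = 0
  eq : ∀ i, P e (q i) = 0
  pp : ∀ i j, P (p i) (p j) = 0
  qq : ∀ i j, P (q i) (q j) = 0
  pq : ∀ i j, P (p i) (q j) = if i = j then e else 0
  ne : e ≠ 0
  gen : ∀ r : R, ∃ N : ℕ, e ^ N * r ∈ Algebra.adjoin ℂ ({e, h} ∪ (Set.range p ∪ Set.range q))

theorem exists_dar (H : P292.X442.HasDarbouxChart 𝒜 P) (halt : ∀ a, P a a = 0) [Nontrivial R] :
    ∃ (n : ℕ) (e h : R) (p q : Fin n → R), Dar 𝒜 P e h p q := by
  obtain ⟨m, e, h, x, w, ⟨e1, h1, x1⟩, ⟨he, hx, ex, xx, hw⟩, hind, hgen⟩ := H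
  have hne : e ≠ 0 := hind.linearIndependent.ne_zero none
  let L : (Fin m → ℂ) →ₗ[ℂ] R := Fintype.linearCombination ℂ x
  have hL : ∀ a, L a = ∑ k, a k • x k := fun a => Fintype.linearCombination_apply ℂ x a
  have hB : ∀ a b, P (L a) (L b) = Matrix.toBilin' w a b • e := fun a b => by
    rw [hL, hL, Matrix.toBilin'_apply, map_sum P, LinearMap.sum_apply, Finset.sum_smul]
    refine Finset.sum_congr rfl fun k _ => ?_
    rw [map_smul, LinearMap.smul_apply, map_sum, Finset.sum_smul, Finset.smul_sum]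
    refine Finset.sum_congr rfl fun l _ => ?_
    rw [map_smul, xx, smul_smul, smul_smul]
    congr 1
    ring
  obtain ⟨n, a, b, ⟨h2, h3, h4⟩, h5⟩ := exists_symplectic (Matrix.toBilin' w)
    (fun v => (smul_eq_zero.1 ((hB v v).symm.trans (halt _))).resolve_right hne)
    (Matrix.Nondegenerate.toBilin' (Matrix.nondegenerate_of_det_ne_zero hw)).1
  have h6 : ∀ v, L v ∈ 𝒜 1 := fun v => hL v ▸ sum_mem fun k _ => Submodule.smul_mem _ _ (x1 k)
  have h7 : ∀ v, P h (L v) = L v := fun v => by simp only [hL, map_sum, map_smul, hx]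
  have h8 : ∀ v, P e (L v) = 0 := fun v => by
    simp only [hL, map_sum, map_smul, ex, smul_zero, Finset.sum_const_zero]
  refine ⟨n, e, h, fun i => L (a i), fun i => L (b i), e1, h1, fun i => h6 _, fun i => h6 _, he,
    fun i => h7 _, fun i => h7 _, fun i => h8 _, fun i => h8 _, fun i j => ?_, fun i j => ?_,
    fun i j => ?_, hne, fun r => ?_⟩
  · rw [hB, h2, zero_smul]
  · rw [hB, h3, zero_smul]
  · rw [hB, h4, ite_smul, one_smul, zero_smul]
  · obtain ⟨N, hN⟩ := hgen r
    refine ⟨N, Algebra.adjoin_le ?_ hN⟩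
    rintro y (hy | ⟨k, rfl⟩)
    · exact Algebra.subset_adjoin (Or.inl hy)
    · have h9 : x k = L (Pi.single k 1) := by simp [L]
      rw [h9, h5 (Pi.single k 1), map_sum]
      refine sum_mem fun i _ => ?_
      rw [map_sub, map_smul, map_smul]
      refine sub_mem (Subalgebra.smul_mem _ (Algebra.subset_adjoin ?_) _)
        (Subalgebra.smul_mem _ (Algebra.subset_adjoin ?_) _)
      · exact Or.inr (Or.inl ⟨i, rfl⟩)
      · exact Or.inr (Or.inr ⟨i, rfl⟩)

theorem Dar.map {n : ℕ} {e h : R} {p q : Fin n → R} (H : Dar 𝒜 P e h p q) {G : R ≃ₐ[ℂ] R}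
    (hG : P292.H442.IsContactIso 𝒜 P 𝒜 P G) :
    Dar 𝒜 P (G e) (G h) (fun i => G (p i)) fun i => G (q i) := by
  refine ⟨(hG.graded 1 _).1 H.e1, (hG.graded 1 _).1 H.h1, fun i => (hG.graded 1 _).1 (H.p1 i),
    fun i => (hG.graded 1 _).1 (H.q1 i), ?_, fun i => ?_, fun i => ?_, fun i => ?_, fun i => ?_,
    fun i j => ?_, fun i j => ?_, fun i j => ?_, (map_ne_zero_iff _ G.injective).2 H.ne,
    fun r => ?_⟩
  · rw [← hG.bracket, H.he, map_smul]
  · rw [← hG.bracket, H.hp]
  · rw [← hG.bracket, H.hq]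
  · rw [← hG.bracket, H.ep, map_zero]
  · rw [← hG.bracket, H.eq, map_zero]
  · rw [← hG.bracket, H.pp, map_zero]
  · rw [← hG.bracket, H.qq, map_zero]
  · rw [← hG.bracket, H.pq, apply_ite G, map_zero]
  · obtain ⟨r, rfl⟩ := G.surjective r
    obtain ⟨N, hN⟩ := H.gen r
    refine ⟨N, ?_⟩
    rw [← map_pow, ← map_mul]
    refine (Subalgebra.mem_comap _ (G : R →ₐ[ℂ] R) _).1 (Algebra.adjoin_le ?_ hN)
    rintro y ((rfl | rfl) | ⟨i, rfl⟩ | ⟨i, rfl⟩)
    · exact Algebra.subset_adjoin (Or.inl (Or.inl rfl))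
    · exact Algebra.subset_adjoin (Or.inl (Or.inr rfl))
    · exact Algebra.subset_adjoin (Or.inr (Or.inl ⟨i, rfl⟩))
    · exact Algebra.subset_adjoin (Or.inr (Or.inr ⟨i, rfl⟩))

end Vale.Agent.N292
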