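import Vale.Agent.N292.Det
import Vale.Agent.N292.Sym
import Vale.Agent.P292.X442.Chart
import Vale.Agent.P292.X442.Dar231

/-!
# The covering by affine spaces with the standard contact structure
-/

open AlgebraicGeometry CategoryTheory TopologicalSpace Opposite Polynomial

namespace Vale.Agent.P292Z

attribute [local instance] MvPolynomial.gradedAlgebra

theorem finrank_der {K σ : Type} [Field K] [Algebra ℂ K] [Fintype σ] [DecidableEq σ] (t : σ → K)
    (W : σ → Derivation ℂ K K) (hW : ∀ i j, W i (t j) = if i = j then 1 else 0)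
    (h0 : ∀ D : Derivation ℂ K K, (∀ i, D (t i) = 0) → D = 0) :
    Module.finrank K (Derivation ℂ K K) = Fintype.card σ := by
  let l : Derivation ℂ K K →ₗ[K] σ → K :=
    { toFun := fun D i => D (t i)
      map_add' := fun _ _ => rfl
      map_smul' := fun _ _ => rfl }
  have h1 : Function.Injective l := (injective_iff_map_eq_zero l).2 fun D hD => h0 D (congrFun hD)
  have h2 : Function.Surjective l := fun c => ⟨∑ i, c i • W i, funext fun j => by
    change (∑ i, c i • W i) (t j) = c j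
    rw [der_sum_apply]
    simp [hW]⟩
  rw [(LinearEquiv.ofBijective l ⟨h1, h2⟩).finrank_eq, Module.finrank_fintype_fun_eq_card]

section Alg

variable {K : Type} [Field K] [Algebra ℂ K] {n : ℕ}

/-- The relations in a Darboux chart. -/
structure DRel (u : K) (s t : Fin n → K) (E : Derivation ℂ K K) (X Y : Fin n → Derivation ℂ K K) :
    Prop where
  Eu : E u = -2
  Es : ∀ j, E (s j) = 0
  Et : ∀ j, E (t j) = 0
  Xu : ∀ i, X i u = -s i
  Xs : ∀ i j, X i (s j) = 0
  Xt : ∀ i j, X i (t j) = if i = j then 1 else 0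
  Yu : ∀ i, Y i u = -t i
  Ys : ∀ i j, Y i (s j) = if i = j then -1 else 0
  Yt : ∀ i j, Y i (t j) = 0

/-- The dual vector fields. -/
noncomputable def dfr (s t : Fin n → K) (E : Derivation ℂ K K) (X Y : Fin n → Derivation ℂ K K) :
    Option (Fin n ⊕ Fin n) → Derivation ℂ K K :=
  fun o => o.elim ((-2 : K)⁻¹ • E) (Sum.elim (fun i => -(Y i + (t i * (-2 : K)⁻¹) • E))
    fun i => X i + (s i * (-2 : K)⁻¹) • E)

theorem DRel.dual [CharZero K] {u : K} {s t : Fin n → K} {E : Derivation ℂ K K}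
    {X Y : Fin n → Derivation ℂ K K} (H : DRel u s t E X Y) (i j : Option (Fin n ⊕ Fin n)) :
    dfr s t E X Y i (j.elim u (Sum.elim s t)) = if i = j then 1 else 0 := by
  rcases i with _ | i | i <;> rcases j with _ | j | j <;>
    simp [dfr, H.Eu, H.Es, H.Et, H.Xu, H.Xs, H.Xt, H.Yu, H.Ys, H.Yt]
  split_ifs <;> simp

theorem DRel.form [CharZero K] {u : K} {s t : Fin n → K} {E : Derivation ℂ K K}
    {X Y : Fin n → Derivation ℂ K K} (H : DRel u s t E X Y)
    (h0 : ∀ D : Derivation ℂ K K, (∀ o : Option (Fin n ⊕ Fin n), D (o.elim u (Sum.elim s t)) = 0) →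
      D = 0) {α : Derivation ℂ K K →ₗ[K] K} {ε : K} (hε : ε ≠ 0) (h1 : α E = -ε)
    (h2 : ∀ i, α (X i) = -(s i * ε)) (h3 : ∀ i, α (Y i) = -(t i * ε)) (D : Derivation ℂ K K) :
    α D = 0 ↔ D u = ∑ i, (s i * D (t i) - t i * D (s i)) := by
  have h4 : D = ∑ o : Option (Fin n ⊕ Fin n), D (o.elim u (Sum.elim s t)) • dfr s t E X Y o := by
    rw [← sub_eq_zero]
    refine h0 _ fun o => ?_
    rw [Derivation.sub_apply, der_sum_apply]
    simp [H.dual]
  have h5 : α D = ε / 2 * (D u - ∑ i, (s i * D (t i) - t i * D (s i))) := by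
    conv_lhs => rw [h4]
    rw [map_sum, Fintype.sum_option, Fintype.sum_sum_type, mul_sub, Finset.mul_sum, sub_eq_add_neg,
      ← Finset.sum_neg_distrib, ← Finset.sum_add_distrib]
    simp only [dfr, Option.elim, Sum.elim_inl, Sum.elim_inr, map_smul, map_neg, map_add, h1, h2, h3,
      smul_eq_mul]
    congr 1
    · ring
    · exact Finset.sum_congr rfl fun i _ => by ring
  rw [h5, mul_eq_zero, or_iff_right (div_ne_zero hε two_ne_zero), sub_eq_zero]

end Alg

variable {Z : Scheme.{0}} [IsIntegral Z] [Z.Over SpecC] {F : Distribution Z} {d : ℕ}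

namespace Atlas

variable {A : Atlas F d} {P : A.R →ₗ[ℂ] A.R →ₗ[ℂ] A.R}

theorem IsBr.coeff_one (hP : IsBr P) (c : Chart F d) {a b : A.R} (ha : a ∈ A.grade 1)
    (hb : b ∈ A.grade 1) : (P a b).1.coeff 1 / A.g c =
      A.ham (a.1.coeff 1) (b.1.coeff 1 / A.g c) +
        c.cu (a.1.coeff 1 / A.g c) 0 * (b.1.coeff 1 / A.g c) := by
  have h := congrArg c.θ (hP.ham_lie ha hb)
  rw [ham_eq c, ham_eq c, ham_eq c (b.1.coeff 1), c.θ_lie_hv, c.θ_hv, c.θ_hv, map_neg,
    ← ham_eq c] at h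
  linear_combination -h

theorem IsBr.ham_div (hP : IsBr P) {a b e : A.R} (ha : a ∈ A.grade 1) (hb : b ∈ A.grade 1)
    (he : e ∈ A.grade 1) (h0 : e.1.coeff 1 ≠ 0) :
    A.ham (a.1.coeff 1) (b.1.coeff 1 / e.1.coeff 1) = (P a b).1.coeff 1 / e.1.coeff 1 -
      b.1.coeff 1 / e.1.coeff 1 * ((P a e).1.coeff 1 / e.1.coeff 1) := by
  set c := A.ch (genericPoint Z)
  have hg := A.g_ne c
  have h1 := hP.coeff_one c ha hb
  have h2 := hP.coeff_one c ha he
  rw [div_eq_iff hg] at h1 h2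
  rw [← div_div_div_cancel_right₀ hg (b.1.coeff 1), der_div _ _ _ (div_ne_zero h0 hg), h1, h2]
  field_simp
  ring

variable {n : ℕ} {e h : A.R} {p q : Fin n → A.R}

/-- The ratio of two sections. -/
noncomputable def rt (e a : A.R) : K Z := a.1.coeff 1 / e.1.coeff 1

theorem coeff_ne {e : A.R} (he : e ∈ A.grade 1) (h0 : e ≠ 0) : e.1.coeff 1 ≠ 0 := fun h =>
  h0 (Subtype.ext (by rw [eq_monomial he, h, map_zero]; rfl))

theorem IsBr.skew (hP : IsBr P) (a b : A.R) : P a b = -P b a := by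
  have h := hP.alternating (a + b)
  simp only [map_add, LinearMap.add_apply, hP.alternating] at h
  linear_combination h

theorem rt_zero : rt e 0 = 0 := by rw [rt, ZeroMemClass.coe_zero, coeff_zero, zero_div]

theorem rt_neg (a : A.R) : rt e (-a) = -rt e a := by
  rw [rt, NegMemClass.coe_neg, coeff_neg, neg_div, rt]

theorem drel (hP : IsBr P) (H : N292.Dar A.grade P e h p q) :
    DRel (rt e h) (fun i => rt e (p i)) (fun i => rt e (q i)) (A.ham (e.1.coeff 1))
      (fun i => A.ham ((p i).1.coeff 1)) fun i => A.ham ((q i).1.coeff 1) := by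
  have h0 := coeff_ne H.e1 H.ne
  have hd : ∀ {a b : A.R}, a ∈ A.grade 1 → b ∈ A.grade 1 → P a e = 0 →
      A.ham (a.1.coeff 1) (rt e b) = rt e (P a b) := fun ha hb h => by
    rw [rt, hP.ham_div ha hb H.e1 h0, h, ZeroMemClass.coe_zero, coeff_zero, zero_div, mul_zero,
      sub_zero, rt]
  have h1 : rt e e = 1 := div_self h0
  have h2 : rt e ((2 : ℂ) • e) = 2 := by
    rw [rt, SetLike.val_smul, coeff_smul, Algebra.smul_def, map_ofNat, mul_div_cancel_right₀ _ h0]
  have hee := hP.alternating e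
  have hpe : ∀ i, P (p i) e = 0 := fun i => by rw [hP.skew, H.ep, neg_zero]
  have hqe : ∀ i, P (q i) e = 0 := fun i => by rw [hP.skew, H.eq, neg_zero]
  refine ⟨?_, fun j => ?_, fun j => ?_, fun i => ?_, fun i j => ?_, fun i j => ?_, fun i => ?_,
    fun i j => ?_, fun i j => ?_⟩
  · rw [hd H.e1 H.h1 hee, hP.skew, H.he, rt_neg, h2]
  · rw [hd H.e1 (H.p1 j) hee, H.ep, rt_zero]
  · rw [hd H.e1 (H.q1 j) hee, H.eq, rt_zero]
  · rw [hd (H.p1 i) H.h1 (hpe i), hP.skew, H.hp, rt_neg]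
  · rw [hd (H.p1 i) (H.p1 j) (hpe i), H.pp, rt_zero]
  · rw [hd (H.p1 i) (H.q1 j) (hpe i), H.pq, apply_ite (rt e), h1, rt_zero]
  · rw [hd (H.q1 i) H.h1 (hqe i), hP.skew, H.hq, rt_neg]
  · rw [hd (H.q1 i) (H.p1 j) (hqe i), hP.skew, H.pq, rt_neg, apply_ite (rt e), h1, rt_zero,
      apply_ite Neg.neg, neg_zero, if_congr eq_comm rfl rfl]
  · rw [hd (H.q1 i) (H.q1 j) (hqe i), H.qq, rt_zero]

theorem exists_aeval [CompactSpace Z] (H : N292.Dar A.grade P e h p q) {f : K Z}
    (hf : ∀ x, A.GenAt 1 (e.1.coeff 1) x → f ∈ O x) :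
    ∃ G : MvPolynomial (Option (Fin n ⊕ Fin n)) ℂ, MvPolynomial.aeval (fun o => o.elim (rt e h)
      (Sum.elim (fun i => rt e (p i)) fun i => rt e (q i))) G = f := by
  have h0 := coeff_ne H.e1 H.ne
  obtain ⟨k, hk⟩ := exists_extend (m := 0) (f := f) (secAt_coeff e 1) h0 fun x hx =>
    secAt_zero_iff.2 (hf x hx)
  let ev : A.R →ₐ[ℂ] K Z :=
    ((Polynomial.aeval (e.1.coeff 1)⁻¹ : (K Z)[X] →ₐ[K Z] K Z).restrictScalars ℂ).comp A.R.val
  have h1 : ∀ (m : ℕ) (r : A.R) (a : K Z), r.1 = monomial m a → ev r = a / e.1.coeff 1 ^ m := by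
    intro m r a hr
    change Polynomial.aeval _ r.1 = _
    rw [hr, aeval_monomial, inv_pow, div_eq_mul_inv]
    rfl
  have h2 : ∀ r ∈ A.grade 1, ev r = rt e r := fun r hr => by
    rw [h1 1 r _ (eq_monomial hr), pow_one, rt]
  obtain ⟨N, hN⟩ := H.gen (mono (hk k le_rfl))
  have h3 : ev (e ^ N * mono (hk k le_rfl)) = f := by
    rw [map_mul, map_pow, h2 e H.e1, rt, div_self h0, one_pow, one_mul, h1 _ _ _ rfl, zero_add,
      one_mul, mul_div_cancel_right₀ _ (pow_ne_zero _ h0)]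
  rw [← AlgHom.mem_range, ← h3]
  refine (Subalgebra.mem_comap _ ev _).1 (Algebra.adjoin_le ?_ hN)
  rintro y ((rfl | rfl) | ⟨i, rfl⟩ | ⟨i, rfl⟩) <;> rw [SetLike.mem_coe, Subalgebra.mem_comap]
  · exact ((h2 _ H.e1).trans (div_self h0)).symm ▸ one_mem _
  · exact ⟨MvPolynomial.X none, (MvPolynomial.aeval_X _ _).trans (h2 _ H.h1).symm⟩
  · exact ⟨MvPolynomial.X (some (.inl i)), (MvPolynomial.aeval_X _ _).trans (h2 _ (H.p1 i)).symm⟩
  · exact ⟨MvPolynomial.X (some (.inr i)), (MvPolynomial.aeval_X _ _).trans (h2 _ (H.q1 i)).symm⟩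

/-- The affine space with the standard contact structure. -/
def Std (m : ℕ) {B : Type} [CommRing B] [Algebra ℂ B] (G : Submodule B (Derivation ℂ B B)) : Prop :=
  ∃ (u : B) (s t : Fin m → B), Function.Bijective (MvPolynomial.aeval (R := ℂ)
    fun o : Option (Fin m ⊕ Fin m) => o.elim u (Sum.elim s t)) ∧
      ∀ v : Derivation ℂ B B, v ∈ G ↔ v u = ∑ i, (s i * v (t i) - t i * v (s i))

theorem std_of_dar [CompactSpace Z] (hP : IsBr P) (H : N292.Dar A.grade P e h p q)
    (hU : IsAffineOpen (A.locus 1 (e.1.coeff 1))) {m : ℕ} (hd : d = 2 * m + 1) :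
    Std m (F.sec ⟨_, hU⟩) := by
  have h0 := coeff_ne H.e1 H.ne
  have hη : genericPoint Z ∈ A.locus 1 (e.1.coeff 1) :=
    ⟨O_generic _, div_ne_zero h0 (pow_ne_zero _ (A.g_ne _)), O_generic _⟩
  have hR := drel hP H
  have h1 : ∀ a : A.R, ∃ b : Γ(Z, A.locus 1 (e.1.coeff 1)), toK _ hη b = rt e a := fun a =>
    exists_toK_eq _ hη fun x hx => GenAt.div_mem hx (secAt_coeff a 1 x)
  choose l hl using h1
  set τ : Option (Fin n ⊕ Fin n) → K Z := fun o => o.elim (rt e h)
    (Sum.elim (fun i => rt e (p i)) fun i => rt e (q i)) with hτ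
  have h2 : ∀ G, toK _ hη (MvPolynomial.aeval (R := ℂ) (fun o : Option (Fin n ⊕ Fin n) =>
      o.elim (l h) (Sum.elim (fun i => l (p i)) fun i => l (q i))) G) = MvPolynomial.aeval τ G := by
    intro G
    induction G using MvPolynomial.induction_on with
    | C a => rw [MvPolynomial.aeval_C, MvPolynomial.aeval_C, toK_algebraMap]
    | add p q hp hq => rw [map_add, map_add, map_add, hp, hq]
    | mul_X G o hG =>
      rw [map_mul, map_mul, map_mul, hG, MvPolynomial.aeval_X, MvPolynomial.aeval_X]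
      rcases o with _ | i | i <;> exact congrArg _ (hl _)
  have h3 : ∀ b : Γ(Z, A.locus 1 (e.1.coeff 1)), ∃ G, MvPolynomial.aeval τ G = toK _ hη b :=
    fun b => exists_aeval H fun x hx => toK_mem (show x ∈ A.locus 1 (e.1.coeff 1) from hx) hη b
  have h4 : ∀ D : DK Z, (∀ o, D (τ o) = 0) → D = 0 := by
    intro D hD
    refine der_eq_of_toK (U := ⟨_, hU⟩) hη fun b => ?_
    obtain ⟨G, hG⟩ := h3 b
    rw [← hG, Derivation.zero_apply]
    clear hG
    induction G using MvPolynomial.induction_on with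
    | C a => rw [MvPolynomial.aeval_C, Derivation.map_algebraMap]
    | add p q hp hq => rw [map_add, map_add, hp, hq, add_zero]
    | mul_X G o hG =>
      rw [map_mul, Derivation.leibniz, hG, MvPolynomial.aeval_X, hD, smul_zero, smul_zero, add_zero]
  have h5 : n = m := by
    set c := A.ch (genericPoint Z)
    have h6 := (finrank_der τ _ hR.dual h4).symm.trans (finrank_der c.t c.w c.dual fun D hD => by
      rw [c.expand D]
      simp [hD])
    simp only [Fintype.card_option, Fintype.card_sum, Fintype.card_fin] at h6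
    omega
  subst h5
  refine ⟨l h, fun i => l (p i), fun i => l (q i), ⟨fun G G' hG => ?_, fun b => ?_⟩, fun v => ?_⟩
  · exact N292.aeval_injective_of_dual τ _ hR.dual
      ((h2 G).symm.trans ((congrArg (toK _ hη) hG).trans (h2 G')))
  · obtain ⟨G, hG⟩ := h3 b
    exact ⟨G, toK_injective _ hη ((h2 G).trans hG)⟩
  · rw [A.mem_sec_iff (V := ⟨_, hU⟩) hη v (A.ch (genericPoint Z)), ← A.α_eq_zero,
      hR.form h4 h0 (A.α_ham _) (fun i => by rw [α_ham, rt, div_mul_cancel₀ _ h0])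
        (fun i => by rw [α_ham, rt, div_mul_cancel₀ _ h0]), ← (toK_injective _ hη).eq_iff, map_sum]
    simp only [← hl, ext_toK (U := ⟨_, hU⟩) hη, map_sub, map_mul]

variable {g : Type} [LieRing g] [LieAlgebra ℂ g] [FiniteDimensional ℂ g] [LieAlgebra.IsSimple ℂ g]
  {φ : g →ₗ[ℂ] A.R} {O : Set g}

theorem Pres.isAffineOpen [IsProper (Z ↘ SpecC)] (H : Pres P φ O) (e : A.R) :
    IsAffineOpen (A.locus 1 (e.1.coeff 1)) := by
  have hcov := cover_of_ample H.ample H.lie.surj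
  obtain ⟨j, hj⟩ := exists_isEmb (𝒜 := forms g) H.lie.secAt_Phi hcov
  have hcl := hj.isClosedImmersion H.ample H.lie.secAt_Phi H.lie.surj
  obtain ⟨G, hG, hG'⟩ := H.lie.surj 1 _ (secAt_coeff e 1)
  have h1 : j ⁻¹ᵁ Proj.basicOpen (forms g) G = A.locus 1 (e.1.coeff 1) :=
    Opens.ext (Set.ext fun z => hG' ▸ hj.mem_iff H.lie.secAt_Phi hcov hG z)
  rw [← h1]
  exact (Proj.isAffineOpen_basicOpen (forms g) G hG one_pos).preimage j

theorem Pres.exists_std [IsProper (Z ↘ SpecC)] (H : Pres P φ O) {m : ℕ} (hm : 1 ≤ m)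
    (hd : d = 2 * m + 1) (x : Z) : ∃ U : Z.affineOpens, x ∈ U.1 ∧ Std m (F.sec U) := by
  have := compactSpace_of_proper (Z := Z)
  have hX := H.br.isContactFano H.ample
  have h3 : 3 ≤ Algebra.trdeg ℂ A.R :=
    le_trans (by exact_mod_cast (by omega : 3 ≤ d)) (le_trdeg H.ample)
  obtain ⟨n, e, h, p, q, hD⟩ := N292.exists_dar
    (P292.X442.hasDarbouxChart P292.X442.stDar P292.X442.stNot3 hX h3) H.br.alternating
  obtain ⟨x₀, hx₀, hc₀⟩ := (isClosed_closure (s := {x})).exists_closed_singleton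
    ⟨x, subset_closure rfl⟩
  obtain ⟨y, rfl⟩ := exists_pt_of_closed (A := A) hc₀
  obtain ⟨x₁, hx₁, hc₁⟩ := exists_closed_mem (A.locus 1 (e.1.coeff 1)).isOpen ⟨genericPoint Z,
    O_generic _, div_ne_zero (coeff_ne hD.e1 hD.ne) (pow_ne_zero _ (A.g_ne _)), O_generic _⟩
  obtain ⟨y', rfl⟩ := exists_pt_of_closed (A := A) hc₁
  obtain ⟨G, hG, hGp⟩ := P292.H442.exists_auto (P292.H442.hasCore hX h3) y.p y'.p
    (y.not_isVertex H.ample) (y'.not_isVertex H.ample)
  have hD' := hD.map hG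
  refine ⟨⟨_, H.isAffineOpen (G e)⟩, ?_, std_of_dar H.br hD' _ hd⟩
  have h1 : y.x ∈ A.locus 1 ((G e).1.coeff 1) := by
    rw [mem_locus, ← y.ev_monomial_ne_zero (secAt_coeff _ 1 _), ← eq_monomial hD'.e1, ← Pt.p_apply,
      hGp, Pt.p_apply, eq_monomial hD.e1, y'.ev_monomial_ne_zero (secAt_coeff _ 1 _)]
    exact hx₁
  exact (specializes_iff_mem_closure.2 hx₀).mem_open (A.locus 1 _).isOpen h1

end Atlas

end Vale.Agent.P292Z
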