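import Vale.Agent.N292.Act
import Vale.Agent.P292.H442.Ext
import Vale.Agent.P292.X442.Not3_9

/-!
# Homogeneity and determination by the Lie algebra
-/

open AlgebraicGeometry CategoryTheory TopologicalSpace Opposite Polynomial

namespace Vale.Agent.P292Z

attribute [local instance] MvPolynomial.gradedAlgebra

variable {g : Type} [LieRing g] [LieAlgebra ℂ g]
variable {Z : Scheme.{0}} [IsIntegral Z] [Z.Over SpecC] {F : Distribution Z} {d : ℕ}
variable {Z' : Scheme.{0}} [IsIntegral Z'] [Z'.Over SpecC] {F' : Distribution Z'} {d' : ℕ}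

namespace Atlas

variable {A : Atlas F d} {P : A.R →ₗ[ℂ] A.R →ₗ[ℂ] A.R} {φ : g →ₗ[ℂ] A.R} {O : Set g}
  {A' : Atlas F' d'} {P' : A'.R →ₗ[ℂ] A'.R →ₗ[ℂ] A'.R} {φ' : g →ₗ[ℂ] A'.R}

theorem Pres.of_iso (H : Pres P φ O) (h' : A'.IsAmple) (hP' : IsBr P') (hφ' : IsLie P' φ')
    {G : A.R ≃ₐ[ℂ] A'.R} (hG : P292.H442.IsContactIso A.grade P A'.grade P' G)
    (hGφ : ∀ a, G (φ a) = φ' a) : Pres P' φ' O := by
  refine ⟨h', hP', hφ', fun a b h => H.inj (G.injective (by rw [hGφ, hGφ, h])), ?_⟩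
  rw [← H.cone]
  ext z
  constructor
  · rintro ⟨p, hp, hz⟩
    refine ⟨p.comp G, fun hv => hp fun k hk r hr => ?_, fun a => ?_⟩
    · obtain ⟨r, rfl⟩ := G.surjective r
      exact hv k hk r ((hG.graded k r).2 hr)
    · rw [← hz, ← hGφ]
      rfl
  · rintro ⟨p, hp, hz⟩
    refine ⟨p.comp G.symm, fun hv => hp fun k hk r hr => ?_, fun a => ?_⟩
    · have h1 := hv k hk (G r) ((hG.graded k r).1 hr)
      exact (congrArg p (G.symm_apply_apply r)).symm.trans h1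
    · rw [← hz, ← hGφ]
      exact congrArg p (G.symm_apply_apply _)

theorem IsLie.comp (hφ : IsLie P φ) {G : A.R ≃ₐ[ℂ] A.R}
    (hG : P292.H442.IsContactIso A.grade P A.grade P G) : IsLie P (G.toLinearMap ∘ₗ φ) := by
  refine ⟨le_antisymm ?_ fun r hr => ?_, fun a b => ?_, hφ.adjoin⟩
  · rintro _ ⟨a, rfl⟩
    exact (hG.graded 1 _).1 (hφ.mem a)
  · obtain ⟨r, rfl⟩ := G.surjective r
    obtain ⟨a, rfl⟩ : r ∈ LinearMap.range φ := hφ.range ▸ (hG.graded 1 r).2 hr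
    exact ⟨a, rfl⟩
  · change G (φ ⁅a, b⁆) = P (G (φ a)) (G (φ b))
    rw [hφ.lie, hG.bracket]

/-- The identification of `g` with the sections of `L`. -/
noncomputable def IsLie.equiv (hφ : IsLie P φ) (hi : Function.Injective φ) :
    g ≃ₗ[ℂ] A.grade 1 :=
  (LinearEquiv.ofInjective φ hi).trans (LinearEquiv.ofEq _ _ hφ.range)

theorem IsLie.coe_equiv (hφ : IsLie P φ) (hi : Function.Injective φ) (a : g) :
    (hφ.equiv hi a : A.R) = φ a := rfl

theorem Pres.transport [IsProper (Z ↘ SpecC)] [IsProper (Z' ↘ SpecC)] (H : Pres P φ O)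
    (hd : 3 ≤ d) (h' : A'.IsAmple) (hP' : IsBr P') (hd' : 3 ≤ d') (hφ' : IsLie P' φ')
    (hi : Function.Injective φ') : Pres P' φ' O := by
  have hX := H.br.isContactFano H.ample
  have hX' := hP'.isContactFano h'
  have hC := P292.H442.hasCore hX (le_trans (by exact_mod_cast hd) (le_trdeg H.ample))
  have hC' := P292.H442.hasCore hX' (le_trans (by exact_mod_cast hd') (le_trdeg h'))
  let i : g ≃ₗ[ℂ] P292.LieOne hX := H.lie.equiv H.inj
  let i' : g ≃ₗ[ℂ] P292.LieOne hX' := hφ'.equiv hi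
  have hf : ∀ a, (i.symm.trans i') (i a) = i' a := fun a => congrArg i' (i.symm_apply_apply a)
  obtain ⟨G, hG, hGf⟩ := P292.H442.exists_extension hC hC' (i.symm.trans i') fun u v => by
    obtain ⟨a, rfl⟩ := i.surjective u
    obtain ⟨b, rfl⟩ := i.surjective v
    have h1 : ⁅i a, i b⁆ = i ⁅a, b⁆ := P292.LieOne.incl_injective hX (H.lie.lie a b).symm
    rw [h1, hf, hf, hf]
    exact P292.LieOne.incl_injective hX' (hφ'.lie a b)
  refine H.of_iso h' hP' hφ' hG fun a => ?_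
  have h1 := hGf (i a)
  rw [hf] at h1
  exact h1

theorem Pres.finrank_ne [IsProper (Z ↘ SpecC)] (H : Pres P φ O) (hd : 3 ≤ d) :
    Module.finrank ℂ g ≠ 3 := by
  rw [(H.lie.equiv H.inj).finrank_eq]
  exact P292.X442.stNot3 A.grade P (H.br.isContactFano H.ample)
    (le_trans (by exact_mod_cast hd) (le_trdeg H.ample))

variable [FiniteDimensional ℂ g] [LieAlgebra.IsSimple ℂ g] {e : Z ≅ projOrbit O}
  {ψ : g →ₗ[ℂ] ∀ U : Z.affineOpens, VF Z U}

theorem Good.transitive [IsProper (Z ↘ SpecC)] (H : Pres P φ O) (hd : 3 ≤ d) (he : Good φ O e)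
    {x x' : Z} (hx : IsClosed {x}) (hx' : IsClosed {x'}) :
    ∃ σ : Z ≅ Z, σ.hom ≫ (Z ↘ SpecC) = Z ↘ SpecC ∧ (Car σ.hom F fun U => F.sec U) ∧
      σ.hom x = x' := by
  obtain ⟨y, rfl⟩ := exists_pt_of_closed (A := A) hx
  obtain ⟨y', rfl⟩ := exists_pt_of_closed (A := A) hx'
  have hX := H.br.isContactFano H.ample
  have hC := P292.H442.hasCore hX (le_trans (by exact_mod_cast hd) (le_trdeg H.ample))
  obtain ⟨G, hG, hGp⟩ := P292.H442.exists_auto hC y.p y'.p (y.not_isVertex H.ample)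
    (y'.not_isVertex H.ample)
  have H' := H.of_iso H.ample H.br (H.lie.comp hG) hG fun _ => rfl
  obtain ⟨e', he'⟩ := H'.exists_good
  refine ⟨e' ≪≫ e.symm, he'.trans_base he, he'.trans_car he, he.injective ?_⟩
  obtain ⟨z, -, hz⟩ := H.exists_mem y'
  have h1 := he'.emb.isPoint H.ample H'.lie y (z := z) fun a => (hGp _).trans (hz a)
  rw [← h1.unique (he.emb.isPoint H.ample H.lie y' hz), ← Scheme.Hom.comp_apply]
  simp

theorem Good.determined [IsProper (Z ↘ SpecC)] (H : Pres P φ O) (hd : 3 ≤ d) (he : Good φ O e)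
    (hψ : ∀ a, Rep (ψ a) (hm φ a)) [IsProper (Z' ↘ SpecC)]
    [SmoothOfRelativeDimension d' (Z' ↘ SpecC)] (hd' : 3 ≤ d') (hF' : IsContact F')
    (hK' : IsFano Z' d') {χ : g →ₗ[ℂ] ∀ U : Z'.affineOpens, VF Z' U} (hχ : CAlg F' χ) :
    ∃! σ : Z ≅ Z', (σ.hom ≫ (Z' ↘ SpecC) = Z ↘ SpecC ∧ Car σ.hom F fun U => F'.sec U) ∧
      ∀ a, Push σ.hom (ψ a) (χ a) := by
  obtain ⟨A'⟩ := exists_atlas hF' d'
  have h' := A'.isAmple hK'
  obtain ⟨P', hP'⟩ := A'.exists_isBr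
  have hC' := P292.H442.hasCore (hP'.isContactFano h')
    (le_trans (by exact_mod_cast hd') (le_trdeg h'))
  obtain ⟨φ', hφ', hi, hχ'⟩ := exists_lie_of_calg hP' hC'.adjoin hχ
  have H' := H.transport hd h' hP' hd' hφ' hi
  obtain ⟨e', he'⟩ := H'.exists_good
  exact ⟨e ≪≫ e'.symm, ⟨⟨he.trans_base he', he.trans_car he'⟩, he.trans_push H hψ H' he' hχ'⟩,
    fun σ h => he.iso_unique H hψ H' he' hχ' h.1.1 h.1.2 h.2⟩

end Atlas

theorem exists_pres [IsProper (Z ↘ SpecC)] [SmoothOfRelativeDimension d (Z ↘ SpecC)] (hd : 3 ≤ d)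
    (hF : IsContact F) (hK : IsFano Z d) :
    ∃ (g : Type) (_ : LieRing g) (_ : LieAlgebra ℂ g) (_ : FiniteDimensional ℂ g)
      (_ : LieAlgebra.IsSimple ℂ g) (O : Set g) (A : Atlas F d)
      (P : A.R →ₗ[ℂ] A.R →ₗ[ℂ] A.R) (φ : g →ₗ[ℂ] A.R),
      P292.IsMinimalOrbit O ∧ Atlas.Pres P φ O := by
  obtain ⟨A⟩ := exists_atlas hF d
  have h := A.isAmple hK
  obtain ⟨P, hP⟩ := A.exists_isBr
  obtain ⟨g, _, _, _, _, φ, O, h0, h1, h2, h3, h4, h5⟩ := P292.isAdjointVariety_of_contactFano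
    (hP.isContactFano h) (le_trans (by exact_mod_cast hd) (Atlas.le_trdeg h))
  exact ⟨g, _, _, inferInstance, inferInstance, O, A, P, φ, h4, h, hP, ⟨h1, h2, h3⟩, h0, h5⟩

end Vale.Agent.P292Z
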