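import Vale.Agent.P292Z.Adj

/-!
# The contact vector field of a section of the contact line bundle
-/

open AlgebraicGeometry CategoryTheory TopologicalSpace Opposite Polynomial

namespace Vale.Agent.P292Z

variable {Z : Scheme.{0}} [IsIntegral Z] [Z.Over SpecC] {F : Distribution Z} {d : ℕ}

/-- The first jet of a function in a chart. -/
noncomputable def Chart.jt (c : Chart F d) (s : K Z) : Fin (d + 1) → K Z :=
  Fin.cons s fun i => c.w i s

/-- The coefficients of the contact vector field of `s`. -/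
noncomputable def Chart.cu (c : Chart F d) (s : K Z) : Fin (d + 1) → K Z :=
  Matrix.vecMul (c.jt s) c.N

/-- The contact vector field of `s`. -/
noncomputable def Chart.hv (c : Chart F d) (s : K Z) : DK Z := ∑ i, c.cu s (Fin.succ i) • c.w i

theorem Chart.vecMul_cm (c : Chart F d) (u : Fin (d + 1) → K Z) :
    Matrix.vecMul u (cm c.θ c.w) = Fin.cons (-c.θ (∑ i, u (Fin.succ i) • c.w i))
      fun j => u 0 * c.θ (c.w j) + om c.θ (∑ i, u (Fin.succ i) • c.w i) (c.w j) := by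
  funext b
  rw [Matrix.vecMul, dotProduct, Fin.sum_univ_succ]
  induction b using Fin.cases with
  | zero =>
    simp only [cm_zero_zero, cm_succ_zero, mul_zero, zero_add, Fin.cons_zero, map_sum, map_smul,
      smul_eq_mul, mul_neg, Finset.sum_neg_distrib]
  | succ j =>
    simp only [cm_zero_succ, cm_succ_succ, Fin.cons_succ, om_sum_left]

theorem Chart.cu_cm (c : Chart F d) (s : K Z) : Matrix.vecMul (c.cu s) (cm c.θ c.w) = c.jt s := by
  rw [Chart.cu, Matrix.vecMul_vecMul, c.N_mul, Matrix.vecMul_one]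

theorem Chart.θ_hv (c : Chart F d) (s : K Z) : c.θ (c.hv s) = -s := by
  have h := congrFun ((c.vecMul_cm (c.cu s)).symm.trans (c.cu_cm s)) 0
  rw [Fin.cons_zero, Chart.jt, Fin.cons_zero] at h
  exact (neg_eq_iff_eq_neg.1 h :)

theorem Chart.θ_lie_hv (c : Chart F d) (s : K Z) (E : DK Z) :
    c.θ ⁅c.hv s, E⁆ = c.hv s (c.θ E) + c.cu s 0 * c.θ E := by
  have h : ∀ j, c.cu s 0 * c.θ (c.w j) + om c.θ (c.hv s) (c.w j) = c.w j s := fun j => by
    have h := congrFun ((c.vecMul_cm (c.cu s)).symm.trans (c.cu_cm s)) j.succ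
    rw [Fin.cons_succ, Chart.jt, Fin.cons_succ] at h
    exact h
  have h1 : c.cu s 0 * c.θ E + om c.θ (c.hv s) E = E s := by
    conv_lhs => rw [c.expand E]
    conv_rhs => rw [c.expand E]
    rw [om_sum_right, map_sum, der_sum_apply, Finset.mul_sum, ← Finset.sum_add_distrib]
    refine Finset.sum_congr rfl fun j _ => ?_
    rw [map_smul, Derivation.smul_apply, smul_eq_mul, smul_eq_mul, ← h]
    ring
  rw [om, c.θ_hv, map_neg] at h1
  linear_combination -h1

theorem Chart.hv_t (c : Chart F d) (s : K Z) (i : Fin d) : c.hv s (c.t i) = c.cu s i.succ := by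
  rw [Chart.hv, der_sum_apply]
  simp [c.dual]

theorem Chart.eq_hv (c : Chart F d) {D : DK Z} (hD : ∀ E, c.θ E = 0 → c.θ ⁅D, E⁆ = 0) :
    D = c.hv (-c.θ D) := by
  have h1 : ∀ E, c.θ ⁅D, E⁆ = D (c.θ E) + c.θ ⁅D, c.e⁆ * c.θ E := by
    intro E
    have h2 := hD (E - c.θ E • c.e) (by rw [map_sub, map_smul, c.θe, smul_eq_mul, mul_one, sub_self])
    rw [lie_sub, map_sub, ← lie_skew D (c.θ E • c.e), smul_lie_der, map_neg, map_sub, map_smul,
      map_smul, c.θe, ← lie_skew c.e D, map_neg, smul_eq_mul, smul_eq_mul] at h2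
    linear_combination h2
  let u : Fin (d + 1) → K Z := Fin.cons (c.θ ⁅D, c.e⁆) fun i => D (c.t i)
  have h2 : ∑ i, u (Fin.succ i) • c.w i = D := (c.expand D).symm
  have h3 : Matrix.vecMul u (cm c.θ c.w) = c.jt (-c.θ D) := by
    rw [c.vecMul_cm, h2, Chart.jt]
    congr 1
    funext j
    rw [om, h1, map_neg]
    change c.θ ⁅D, c.e⁆ * _ + _ = _
    ring
  have h4 : c.cu (-c.θ D) = u := by
    rw [Chart.cu, ← h3, Matrix.vecMul_vecMul, mul_eq_one_comm.1 c.N_mul, Matrix.vecMul_one]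
  rw [Chart.hv, h4, h2]

theorem Chart.jt_mem (c : Chart F d) {x : Z} (hx : x ∈ c.U.1) {s : K Z} (hs : s ∈ O x)
    (a : Fin (d + 1)) : c.jt s a ∈ O x := by
  induction a using Fin.cases with
  | zero => exact hs
  | succ i => exact c.w_reg x hx i s hs

theorem Chart.cu_mem (c : Chart F d) {x : Z} (hx : x ∈ c.U.1) {s : K Z} (hs : s ∈ O x)
    (a : Fin (d + 1)) : c.cu s a ∈ O x := by
  rw [Chart.cu, Matrix.vecMul, dotProduct]
  exact sum_mem fun b _ => mul_mem (c.jt_mem hx hs b) (c.N_mem hx b a)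

theorem Chart.reg_hv (c : Chart F d) {x : Z} (hx : x ∈ c.U.1) {s : K Z} (hs : s ∈ O x) :
    Reg x (c.hv s) := by
  intro f hf
  rw [Chart.hv, der_sum_apply]
  exact sum_mem fun i _ => mul_mem (c.cu_mem hx hs _) (c.w_reg x hx i f hf)

namespace Atlas

variable (A : Atlas F d)

/-- The rational vector field `D` preserves the contact distribution. -/
def IsCt (D : DK Z) : Prop := ∀ E, A.α E = 0 → A.α ⁅D, E⁆ = 0

theorem α_eq_zero (c : Chart F d) (E : DK Z) : A.α E = 0 ↔ c.θ E = 0 := by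
  rw [A.α_eq c, mul_eq_zero, or_iff_right (A.g_ne c)]

theorem isCt_iff (c : Chart F d) (D : DK Z) : A.IsCt D ↔ ∀ E, c.θ E = 0 → c.θ ⁅D, E⁆ = 0 :=
  forall_congr' fun E => by rw [A.α_eq_zero c, A.α_eq_zero c]

/-- The contact vector field of the rational section `f` of `L`. -/
noncomputable def ham (f : K Z) : DK Z :=
  (A.ch (genericPoint Z)).hv (f / A.g (A.ch (genericPoint Z)))

theorem α_hv (c : Chart F d) (f : K Z) : A.α (c.hv (f / A.g c)) = -f := by
  rw [A.α_eq c, c.θ_hv, mul_neg, mul_div_cancel₀ _ (A.g_ne c)]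

theorem α_ham (f : K Z) : A.α (A.ham f) = -f := A.α_hv _ f

theorem isCt_ham (f : K Z) : A.IsCt (A.ham f) :=
  (A.isCt_iff (A.ch (genericPoint Z)) _).2 fun E hE => by
    rw [ham, Chart.θ_lie_hv, hE, map_zero, mul_zero, add_zero]

variable {A}

theorem IsCt.eq_hv {D : DK Z} (hD : A.IsCt D) (c : Chart F d) : D = c.hv (-A.α D / A.g c) := by
  rw [A.α_eq c, ← mul_neg, mul_div_cancel_left₀ _ (A.g_ne c)]
  exact c.eq_hv ((A.isCt_iff c D).1 hD)

theorem IsCt.eq_ham {D : DK Z} (hD : A.IsCt D) : D = A.ham (-A.α D) := hD.eq_hv _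

theorem IsCt.ext {D D' : DK Z} (hD : A.IsCt D) (hD' : A.IsCt D') (h : A.α D = A.α D') : D = D' := by
  rw [hD.eq_ham, hD'.eq_ham, h]

theorem ham_eq (c : Chart F d) (f : K Z) : A.ham f = c.hv (f / A.g c) := by
  have h := (A.isCt_ham f).eq_hv c
  rwa [α_ham, neg_neg] at h

theorem IsCt.add {D D' : DK Z} (hD : A.IsCt D) (hD' : A.IsCt D') : A.IsCt (D + D') := fun E hE => by
  rw [add_lie, map_add, hD E hE, hD' E hE, add_zero]

theorem IsCt.smul {D : DK Z} (hD : A.IsCt D) (r : ℂ) : A.IsCt (r • D) := fun E hE => by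
  rw [smul_lie, ← algebraMap_smul (K Z), map_smul, hD E hE, smul_zero]

theorem IsCt.lie {D D' : DK Z} (hD : A.IsCt D) (hD' : A.IsCt D') : A.IsCt ⁅D, D'⁆ := fun E hE => by
  rw [lie_lie, map_sub, hD _ (hD' E hE), hD' _ (hD E hE), sub_zero]

theorem ham_add (f f' : K Z) : A.ham (f + f') = A.ham f + A.ham f' :=
  (A.isCt_ham _).ext ((A.isCt_ham f).add (A.isCt_ham f')) (by
    rw [map_add, α_ham, α_ham, α_ham, neg_add])

theorem ham_smul (r : ℂ) (f : K Z) : A.ham (r • f) = r • A.ham f :=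
  (A.isCt_ham _).ext ((A.isCt_ham f).smul r) (by
    rw [← algebraMap_smul (K Z) r (A.ham f), map_smul, α_ham, α_ham, algebraMap_smul, smul_neg])

theorem ham_injective : Function.Injective A.ham := fun f f' h => by
  have h1 := congrArg A.α h
  rwa [α_ham, α_ham, neg_inj] at h1

theorem reg_ham {f : K Z} {x : Z} (hf : A.SecAt 1 f x) : Reg x (A.ham f) := by
  rw [ham_eq (A.ch x)]
  refine (A.ch x).reg_hv (A.mem x) ?_
  rwa [SecAt, pow_one] at hf

theorem secAt_α {D : DK Z} {x : Z} (hD : Reg x D) : A.SecAt 1 (-A.α D) x := by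
  rw [SecAt, pow_one, A.α_eq (A.ch x), ← mul_neg, mul_div_cancel_left₀ _ (A.g_ne _)]
  exact neg_mem ((A.ch x).θ_mem (A.mem x) hD)

theorem lf_one (c : Chart F d) (f : K Z) (a : Fin (d + 1)) :
    lf (A.g c) c.w a (monomial 1 f) = monomial 1 (c.jt (f / A.g c) a * A.g c) := by
  induction a using Fin.cases with
  | zero =>
    rw [lf_zero_monomial, Nat.cast_one, one_mul, Chart.jt, Fin.cons_zero,
      div_mul_cancel₀ _ (A.g_ne c)]
  | succ i =>
    rw [lf_succ_monomial (A.g_ne c), pow_one, Chart.jt, Fin.cons_succ]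

variable {P : A.R →ₗ[ℂ] A.R →ₗ[ℂ] A.R}

theorem IsBr.ham_lie (hP : IsBr P) {a b : A.R} (ha : a ∈ A.grade 1) (hb : b ∈ A.grade 1) :
    A.ham ((P a b).1.coeff 1) = ⁅A.ham (a.1.coeff 1), A.ham (b.1.coeff 1)⁆ := by
  refine (A.isCt_ham _).ext ((A.isCt_ham _).lie (A.isCt_ham _)) ?_
  set c := A.ch (genericPoint Z)
  have h1 := congrArg (fun q => coeff q (1 + 1)) (hP.chart c a b)
  rw [eq_monomial ha, eq_monomial hb] at h1
  simp only [coeff_monomial_mul, qb, lf_one, monomial_mul_C, Finset.sum_mul,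
    monomial_mul_monomial, finsetSum_coeff, coeff_monomial_same] at h1
  set s := a.1.coeff 1 / A.g c
  set s' := b.1.coeff 1 / A.g c
  have h2 : ∑ i, ∑ j, c.jt s j * A.g c * c.N j i * (c.jt s' i * A.g c) =
      A.g c * (A.g c * ∑ i, c.cu s i * c.jt s' i) := by
    rw [Finset.mul_sum, Finset.mul_sum]
    refine Finset.sum_congr rfl fun i _ => ?_
    rw [Chart.cu, Matrix.vecMul, dotProduct, Finset.sum_mul, Finset.mul_sum, Finset.mul_sum]
    exact Finset.sum_congr rfl fun j _ => by ring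
  have h3 := mul_left_cancel₀ (A.g_ne c) (h1.trans h2)
  rw [α_ham, h3, A.α_eq c, ham_eq c, ham_eq c, c.θ_lie_hv, c.θ_hv, map_neg, Fin.sum_univ_succ,
    Chart.hv, der_sum_apply]
  simp only [Chart.jt, Fin.cons_zero, Fin.cons_succ, Derivation.smul_apply, smul_eq_mul]
  ring

end Atlas

end Vale.Agent.P292Z
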