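import Vale.Agent.N292.Val

/-!
# Presentations of a contact Fano manifold as an adjoint variety
-/

open AlgebraicGeometry CategoryTheory TopologicalSpace Opposite Polynomial

namespace Vale.Agent.P292Z

attribute [local instance] MvPolynomial.gradedAlgebra

theorem exists_der_of_equiv {A B : Type} [CommRing A] [Algebra ℂ A] [CommRing B] [Algebra ℂ B]
    (ρ : A ≃ₐ[ℂ] B) (w : Derivation ℂ B B) : ∃ v : Derivation ℂ A A, ∀ a, w (ρ a) = ρ (v a) := by
  refine ⟨Derivation.mk' (ρ.symm.toLinearMap ∘ₗ w.toLinearMap ∘ₗ ρ.toLinearMap) fun a b => ?_,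
    fun a => (ρ.apply_symm_apply _).symm⟩
  change ρ.symm (w (ρ (a * b))) = a • ρ.symm (w (ρ b)) + b • ρ.symm (w (ρ a))
  rw [map_mul, Derivation.leibniz, smul_eq_mul, smul_eq_mul, smul_eq_mul, smul_eq_mul, map_add,
    map_mul, map_mul, ρ.symm_apply_apply, ρ.symm_apply_apply]

section Transport

variable {X Y : Scheme.{0}} [X.Over SpecC] [Y.Over SpecC]

theorem appLE_algebraMap (f : X ⟶ Y) (hf : f ≫ (Y ↘ SpecC) = X ↘ SpecC) {U : Y.Opens} {V : X.Opens}
    (h : V ≤ f ⁻¹ᵁ U) (c : ℂ) :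
    f.appLE U V h (algebraMap ℂ Γ(Y, U) c) = algebraMap ℂ Γ(X, V) c := by
  have h1 := congrArg (fun φ => φ.hom ((Scheme.ΓSpecIso (CommRingCat.of ℂ)).inv c))
    (Scheme.Hom.appLE_comp_appLE f (Y ↘ SpecC) ⊤ U V le_top h)
  have h2 : ∀ (s : X ⟶ SpecC), s = X ↘ SpecC → ∀ h, (s.appLE ⊤ V h).hom
      ((Scheme.ΓSpecIso (CommRingCat.of ℂ)).inv c) = algebraMap ℂ Γ(X, V) c := by
    rintro _ rfl h
    rfl
  exact h1.trans (h2 _ hf _)

omit [X.Over SpecC] [Y.Over SpecC] in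
theorem appLE_bijective (f : X ⟶ Y) [IsIso f] {U : Y.Opens} {V : X.Opens} (h : V = f ⁻¹ᵁ U) :
    Function.Bijective (f.appLE U V h.le) := by
  subst h
  rw [Scheme.Hom.appLE_eq_app]
  exact ConcreteCategory.bijective_of_isIso (f.app U)

/-- The isomorphism of the algebras of functions. -/
noncomputable def appEquiv (f : X ⟶ Y) [IsIso f] (hf : f ≫ (Y ↘ SpecC) = X ↘ SpecC) {U : Y.Opens}
    {V : X.Opens} (h : V = f ⁻¹ᵁ U) : Γ(Y, U) ≃ₐ[ℂ] Γ(X, V) :=
  AlgEquiv.ofBijective ⟨(f.appLE U V h.le).hom, appLE_algebraMap f hf h.le⟩ (appLE_bijective f h)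

theorem exists_related_right (f : X ⟶ Y) [IsIso f] (hf : f ≫ (Y ↘ SpecC) = X ↘ SpecC)
    {U : Y.affineOpens} {V : X.affineOpens} (h : V.1 = f ⁻¹ᵁ U.1) (w : VF X V) :
    ∃ v : VF Y U, Related f h.le w v :=
  exists_der_of_equiv (appEquiv f hf h) w

theorem exists_related_left (f : X ⟶ Y) [IsIso f] (hf : f ≫ (Y ↘ SpecC) = X ↘ SpecC)
    {U : Y.affineOpens} {V : X.affineOpens} (h : V.1 = f ⁻¹ᵁ U.1) (v : VF Y U) :
    ∃ w : VF X V, Related f h.le w v := by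
  obtain ⟨w, hw⟩ := exists_der_of_equiv (appEquiv f hf h).symm v
  refine ⟨w, fun a => ?_⟩
  have h1 := hw (appEquiv f hf h a)
  rw [AlgEquiv.symm_apply_apply, AlgEquiv.eq_symm_apply] at h1
  exact h1.symm

theorem Related.comp {T : Scheme.{0}} [T.Over SpecC] {f : X ⟶ Y} {f' : Y ⟶ T} {V : X.affineOpens}
    {U : Y.affineOpens} {W : T.affineOpens} {h : V.1 ≤ f ⁻¹ᵁ U.1} {h' : U.1 ≤ f' ⁻¹ᵁ W.1}
    {w : VF X V} {v : VF Y U} {u : VF T W} (hr : Related f h w v) (hr' : Related f' h' v u)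
    {k : X ⟶ T} (hk : f ≫ f' = k) (h'' : V.1 ≤ k ⁻¹ᵁ W.1) : Related k h'' w u := by
  subst hk
  intro a
  have h1 : ∀ b, (f ≫ f').appLE W.1 V.1 h'' b = f.appLE U.1 V.1 h (f'.appLE W.1 U.1 h' b) :=
    fun b => (congrArg (fun φ => φ.hom b)
      (Scheme.Hom.appLE_comp_appLE f f' W.1 U.1 V.1 h' h)).symm
  rw [h1, h1, hr, hr']

/-- The form of `Carries` for all open sets. -/
def Car (e : X ⟶ Y) (F : Distribution X) (G : ∀ U : Y.affineOpens, Set (VF Y U)) : Prop :=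
  ∀ (U : Y.affineOpens) (V : X.affineOpens) (h : V.1 = e ⁻¹ᵁ U.1) (w : VF X V) (v : VF Y U),
    Related e h.le w v → (w ∈ F.sec V ↔ v ∈ G U)

theorem Carries.car {e : X ≅ Y} {F : Distribution X} {G : ∀ U : Y.affineOpens, Set (VF Y U)}
    (h : Carries e F G) : Car e.hom F G := by
  rintro U ⟨V, hV⟩ (rfl : V = _) w v hr
  exact h U w v hr

theorem Car.cancel {T : Scheme.{0}} [T.Over SpecC] {F : Distribution X} {F' : Distribution Y}
    {G : ∀ U : T.affineOpens, Set (VF T U)} {e : X ⟶ T} {e' : Y ⟶ T} [IsIso e'] {σ : X ⟶ Y}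
    (hσ : σ ≫ e' = e) (he' : e' ≫ (T ↘ SpecC) = Y ↘ SpecC) (h : Car e F G) (h' : Car e' F' G) :
    Car σ F fun U => F'.sec U := by
  intro U V hV w v hr
  let W : T.affineOpens := ⟨inv e' ⁻¹ᵁ U.1, U.2.preimage_of_isIso _⟩
  have hU : U.1 = e' ⁻¹ᵁ W.1 := by
    change U.1 = (e' ≫ inv e') ⁻¹ᵁ U.1
    rw [IsIso.hom_inv_id]
    rfl
  have hV' : V.1 = e ⁻¹ᵁ W.1 := by
    rw [hV, hU, ← hσ]
    rfl
  obtain ⟨u, hu⟩ := exists_related_right e' he' hU v
  exact (h W V hV' w u (hr.comp hu hσ _)).trans (h' W U hU v u hu).symm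

end Transport

variable {g : Type} [LieRing g] [LieAlgebra ℂ g] [FiniteDimensional ℂ g] [LieAlgebra.IsSimple ℂ g]
variable {Z : Scheme.{0}} [IsIntegral Z] [Z.Over SpecC] {F : Distribution Z} {d : ℕ}

namespace Atlas

variable {A : Atlas F d} {P : A.R →ₗ[ℂ] A.R →ₗ[ℂ] A.R} {φ : g →ₗ[ℂ] A.R} {O : Set g}

/-- The data of a presentation. -/
structure Pres (P : A.R →ₗ[ℂ] A.R →ₗ[ℂ] A.R) (φ : g →ₗ[ℂ] A.R) (O : Set g) : Prop where
  ample : A.IsAmple
  br : IsBr P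
  lie : IsLie P φ
  inj : Function.Injective φ
  cone : {z : g | ∃ p : A.R →ₐ[ℂ] ℂ, ¬ P292.IsVertex A.grade p ∧
    ∀ a, p (φ a) = killingForm ℂ g a z} = O

theorem Pres.exists_mem (H : Pres P φ O) (y : A.Pt) :
    ∃ z ∈ O, ∀ a, y.p (φ a) = killingForm ℂ g a z := by
  obtain ⟨z, hz⟩ := exists_kil (y.p.toLinearMap.comp φ)
  exact ⟨z, H.cone ▸ ⟨y.p, y.not_isVertex H.ample, hz⟩, hz⟩

omit [FiniteDimensional ℂ g] [LieAlgebra.IsSimple ℂ g] in
theorem Pres.exists_pt [IsProper (Z ↘ SpecC)] (H : Pres P φ O) {z : g} (hz : z ∈ O) :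
    ∃ y : A.Pt, ∀ a, y.p (φ a) = killingForm ℂ g a z := by
  rw [← H.cone] at hz
  obtain ⟨p, hp, hz⟩ := hz
  obtain ⟨y, rfl⟩ := Atlas.exists_pt H.ample p hp
  exact ⟨y, hz⟩

/-- The isomorphism onto the adjoint variety. -/
structure Good (φ : g →ₗ[ℂ] A.R) (O : Set g) (e : Z ≅ projOrbit O) : Prop where
  base : e.hom ≫ (projOrbit O ↘ SpecC) = Z ↘ SpecC
  car : Car e.hom F (canonical O)
  emb : IsEmb A (Phi φ) (e.hom ≫ incl O)

theorem Pres.exists_good [IsProper (Z ↘ SpecC)] (H : Pres P φ O) : ∃ e, Good φ O e := by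
  have h := H.ample
  have hP := H.br
  have hφ := H.lie
  have := compactSpace_of_proper (Z := Z)
  have hcov := cover_of_ample h hφ.surj
  obtain ⟨j, hj⟩ := exists_isEmb (𝒜 := forms g) hφ.secAt_Phi hcov
  have hcl := hj.isClosedImmersion h hφ.secAt_Phi hφ.surj
  have hO1 := H.exists_mem
  have hO2 := fun z (hz : z ∈ O) => H.exists_pt hz
  have hker : (incl O).ker = j.ker := by
    refine (Scheme.IdealSheafData.ker_subschemeι _).trans (vanishingIdeal_eq_ker j _ ?_)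
    refine subset_antisymm (closure_mono ?_) (closure_minimal ?_ isClosed_closure)
    · rintro x ⟨z, hz, hx⟩
      obtain ⟨y, hy⟩ := hO2 z hz
      exact ⟨y.x, (hj.isPoint h hφ y hy).unique hx⟩
    · rintro _ ⟨x, rfl⟩
      have : JacobsonSpace Z := LocallyOfFiniteType.jacobsonSpace (Z ↘ SpecC)
      have h1 : x ∈ closure (closedPoints Z) := by
        rw [closure_closedPoints]
        trivial
      refine map_mem_closure j.continuous h1 fun x' hx' => ?_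
      obtain ⟨y, rfl⟩ := exists_pt_of_closed (A := A) hx'
      obtain ⟨z, hz, hz'⟩ := hO1 y
      exact ⟨z, hz, hj.isPoint h hφ y hz'⟩
  have hι : IsClosedImmersion (incl O) :=
    inferInstanceAs (IsClosedImmersion (projIdeal O).subschemeι)
  have hiso := IsClosedImmersion.isIso_lift (incl O) j hker
  set e := IsClosedImmersion.lift (incl O) j hker.le
  have he : e ≫ incl O = j := IsClosedImmersion.lift_fac _ _ _
  have he' : e ≫ (projOrbit O ↘ SpecC) = Z ↘ SpecC := by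
    rw [← hj.over hφ.secAt_Phi hcov, ← he, Category.assoc]
    rfl
  have hpt : ∀ x : Z, incl O (e x) = j x := fun x => by
    rw [← he, Scheme.Hom.comp_apply]
  have hsurj : Function.Surjective e := e.homeomorph.surjective
  suffices key : ∀ (U : (projOrbit O).affineOpens) (V : Z.affineOpens) (hVU : V.1 ≤ e ⁻¹ᵁ U.1),
      e ⁻¹ᵁ U.1 ≤ V.1 → ∀ (w : VF Z V) (v : VF (projOrbit O) U), Related e hVU w v →
        (w ∈ F.sec V ↔ v ∈ canonical O U) from
    ⟨asIso e, he', fun U V hV w v hr => key U V hV.le hV.ge w v hr, he ▸ hj⟩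
  intro U V hVU hUV w v hr
  by_cases hV : genericPoint Z ∈ V.1
  swap
  · have h1 : V.1 = ⊥ := eq_bot_iff.2 fun x hx => (hV (gen_mem hx)).elim
    have h2 : Subsingleton Γ(Z, V.1) := by
      rw [h1]
      infer_instance
    have h3 : w = 0 := Derivation.ext fun a => Subsingleton.elim _ _
    refine iff_of_true (h3 ▸ zero_mem _) fun x hx => ?_
    obtain ⟨x, rfl⟩ := hsurj x
    exact (hV (gen_mem (hUV hx))).elim
  constructor
  · intro hw x hx z hz hxz
    obtain ⟨x, rfl⟩ := hsurj x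
    obtain ⟨y, hy⟩ := hO2 z hz
    obtain rfl : y.x = x := j.isClosedEmbedding.injective
      ((hj.isPoint h hφ y hy).unique (hpt x ▸ hxz))
    have hyV : y.x ∈ V.1 := hUV hx
    obtain ⟨u, hu, hu'⟩ := y.exists_horizontal h hP hφ hy (reg_ext hV w hyV) (by
      rw [(A.mem_sec_iff hV w y.c).1 hw, y.e.zero])
    refine ⟨u, hu, fun U' i v' hx' hv' => ?_⟩
    rw [hj.hasTangent_iff h hφ e (incl O) he he' hVU hr i hv' y hyV hx']
    intro a b hb
    have h1 := (hxz 1 _ (MvPolynomial.isHomogeneous_X ℂ b)).1 (hb hx')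
    rw [MvPolynomial.eval_X] at h1
    exact hu' a b h1
  · intro hv
    have : IsIntegral (projOrbit O) := IsIntegral.of_isIso e
    set c := A.ch (genericPoint Z)
    rw [A.mem_sec_iff hV w c]
    by_contra h0
    obtain ⟨x, ⟨⟨hxV, hxc⟩, hxu⟩, hx⟩ := exists_closed_mem
      ((V.1.isOpen.inter c.U.1.isOpen).inter (isOpen_isU (c.θ (ext hV w))))
      ⟨genericPoint Z, ⟨hV, c.hU⟩, O_generic _, h0, O_generic _⟩
    obtain ⟨y, rfl⟩ := exists_pt_of_closed (A := A) hx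
    obtain ⟨z, hz, hy⟩ := hO1 y
    have hxz : IsPoint (incl O (e y.x)) z := hpt y.x ▸ hj.isPoint h hφ y hy
    obtain ⟨u, hu, hu'⟩ := hv (e y.x) (hVU hxV) z hz hxz
    obtain ⟨b, hb⟩ : ∃ b, coord z b ≠ 0 := by
      by_contra hcon
      push Not at hcon
      obtain ⟨k, hk, H, hH, hH'⟩ := hcov y.x
      refine (y.genAt_Phi hφ hy hH).1 hH' ?_
      rw [show coord z = 0 from funext hcon, MvPolynomial.eval_zero, MvPolynomial.constantCoeff_eq]
      exact MvPolynomial.IsHomogeneous.coeff_eq_zero hH (by simpa using hk.ne)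
    have h1 : e y.x ∈ incl O ⁻¹ᵁ Proj.basicOpen (forms g) (MvPolynomial.X b) :=
      (hxz 1 _ (MvPolynomial.isHomogeneous_X ℂ b)).2 (by rwa [MvPolynomial.eval_X])
    obtain ⟨U', hU', hU'le⟩ := exists_affine_le
      (W := U.1 ⊓ incl O ⁻¹ᵁ Proj.basicOpen (forms g) (MvPolynomial.X b)) ⟨hVU hxV, h1⟩
    have i : U'.1 ≤ 𝟙 (projOrbit O) ⁻¹ᵁ U.1 := hU'le.trans inf_le_left
    obtain ⟨v', hv'⟩ := exists_restrict i (gen_mem hU') v
    have h2 := (hj.hasTangent_iff h hφ e (incl O) he he' hVU hr i hv' y hxV hU' z u).1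
      (hu' U' i v' hU' hv')
    have h3 := y.v_θ_eq_zero h hP hφ hy (reg_ext hV w hxV) hu hb fun a =>
      h2 a b (hU'le.trans inf_le_right)
    have h4 : IsU y.x (y.c.θ (ext hV w)) := by
      rw [A.θ_eq c]
      exact (A.isU_g_div c y.c hxc y.mem).mul hxu
    exact (y.e.unit h4.mem).1 h4 h3

end Atlas

end Vale.Agent.P292Z
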