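import Vale.Agent.N292.Br

open AlgebraicGeometry CategoryTheory

namespace Vale.Agent.N292.OldHomogeneous

open Vale.Agent.P292V Vale.Agent.N292

/-- Every contact Fano manifold `(X, F)` of dimension `2 n + 1 ≥ 3` is an adjoint variety with its
canonical contact structure; `g` is the Lie algebra of contact vector fields of `(X, F)`, acting
by the adjoint action; the contact automorphisms are transitive; `(X, F)` is determined by `g`;
`X` is covered by affine spaces with the standard contact structure. -/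
theorem homogeneous (n : ℕ) (X : Scheme.{0}) [X.Over SpecC] (F : Distribution X)
    (hX : ContactFano n F) :
    ∃ (g : Type) (_ : LieRing g) (_ : LieAlgebra ℂ g) (_ : FiniteDimensional ℂ g)
      (_ : LieAlgebra.IsSimple ℂ g) (O : Set g) (e : X ≅ projOrbit O) (ψ : g → Family X),
      (Vale.Agent.P292.IsMinimalOrbit O ∧ e.hom ≫ (projOrbit O ↘ SpecC) = X ↘ SpecC ∧
        Carries e F (canonical (incl O) O)) ∧
      (IsContactAlgebra F ψ ∧ ∀ (a : g) (U : X.affineOpens), ∀ x ∈ U.1, ∀ z ∈ O,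
        IsPoint (image (e.hom ≫ incl O) x) z → HasTangent (e.hom ≫ incl O) (ψ a U) x z ⁅z, a⁆) ∧
      (∀ x y : X, IsClosed {x} → IsClosed {y} →
        ∃ σ : X ≅ X, IsContactIso σ F F ∧ image σ.hom x = y) ∧
      (∀ (m : ℕ) (Y : Scheme.{0}) [Y.Over SpecC] (G : Distribution Y), ContactFano m G →
        ∀ χ : g → Family Y, IsContactAlgebra G χ →
          ∃! σ : X ≅ Y, IsContactIso σ F G ∧ ∀ a, Pushes σ (ψ a) (χ a)) ∧
      ∀ x : X, ∃ U : X.affineOpens, x ∈ U.1 ∧ IsStandard n (F.sec U) := by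
  obtain ⟨hn, _, _, _, hF, hK⟩ := hX
  have := P292Z.isIntegral_of_smooth X (2 * n + 1)
  have hd : 3 ≤ 2 * n + 1 := by omega
  obtain ⟨g, _, _, _, _, O, A, P, φ, hO, H⟩ :=
    P292Z.exists_pres hd (P292Z.isContact_toDist hF) (P292Z.isFano_of hK)
  obtain ⟨e, he⟩ := H.exists_good
  obtain ⟨ψ, hψ⟩ := P292Z.Atlas.exists_psi' φ
  refine ⟨g, _, _, inferInstance, inferInstance, O, e, ψ, ⟨hO, he.base, fun U V h w v hr =>
    (he.car U V h w v hr).trans (P292Z.mem_canonical_iff O U v)⟩,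
    ⟨(P292Z.Atlas.calg_of_rep H.br H.lie H.inj hψ).isContactAlgebra,
      fun a U x hx z hz hxz => he.hasTangent H hψ a U hx hz hxz⟩, fun x y hx hy => ?_,
    fun m Y _ G hY χ hχ => ?_, fun x => H.exists_std hn rfl x⟩
  · obtain ⟨σ, h1, h2, h3⟩ := he.transitive H hd hx hy
    exact ⟨σ, (P292Z.contactIso_iff σ F F).2 ⟨h1, h2⟩, h3⟩
  · obtain ⟨hm, _, _, _, hG, hL⟩ := hY
    have := P292Z.isIntegral_of_smooth Y (2 * m + 1)
    obtain ⟨χ, rfl, hχ'⟩ := P292Z.exists_calg hχ
    exact he.determined H hd hψ (by omega : 3 ≤ 2 * m + 1) (P292Z.isContact_toDist hG)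
      (P292Z.isFano_of hL) hχ'

end Vale.Agent.N292.OldHomogeneous
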