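import Vale.Agent.N292.Ham
import Vale.Agent.P292Z.Final

/-!
# Values of the contact vector fields, global vector fields
-/

open AlgebraicGeometry CategoryTheory TopologicalSpace Opposite Polynomial

namespace Vale.Agent.P292Z

attribute [local instance] MvPolynomial.gradedAlgebra

variable {Z : Scheme.{0}} [IsIntegral Z] [Z.Over SpecC] {F : Distribution Z} {d : ℕ}

omit [Z.Over SpecC] in
theorem subsingleton_of_notMem {V : Z.Opens} (hV : genericPoint Z ∉ V) : Subsingleton Γ(Z, V) := by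
  have h1 : V = ⊥ := eq_bot_iff.2 fun x hx => (hV (gen_mem hx)).elim
  rw [h1]
  infer_instance

theorem vf_ext {V : Z.affineOpens} {v w : VF Z V} (h : ∀ hV, ext hV v = ext hV w) : v = w := by
  by_cases hV : genericPoint Z ∈ V.1
  · exact ext_injective hV (h hV)
  · have := subsingleton_of_notMem hV
    exact Derivation.ext fun a => Subsingleton.elim _ _

theorem mem_sec_of {V : Z.affineOpens} {w : VF Z V} (h : genericPoint Z ∈ V.1 → w ∈ F.sec V) :
    w ∈ F.sec V := by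
  by_cases hV : genericPoint Z ∈ V.1
  · exact h hV
  · have h1 : w = 0 := vf_ext fun h => (hV h).elim
    exact h1 ▸ zero_mem _

/-- The family `v` is given by the rational vector field `D`. -/
def Rep (v : ∀ U : Z.affineOpens, VF Z U) (D : DK Z) : Prop :=
  ∀ (U : Z.affineOpens) (hU : genericPoint Z ∈ U.1), ext hU (v U) = D

theorem exists_rep {D : DK Z} (hD : ∀ x, Reg x D) : ∃ v, Rep v D := by
  have h : ∀ U : Z.affineOpens, ∃ v : VF Z U, ∀ hU, ext hU v = D := by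
    intro U
    by_cases hU : genericPoint Z ∈ U.1
    · obtain ⟨v, hv⟩ := exists_down hU fun x _ => hD x
      exact ⟨v, fun _ => hv⟩
    · exact ⟨0, fun h => (hU h).elim⟩
  choose v hv using h
  exact ⟨v, hv⟩

theorem Rep.unique {v w : ∀ U : Z.affineOpens, VF Z U} {D : DK Z} (hv : Rep v D) (hw : Rep w D) :
    v = w := funext fun U => vf_ext fun hU => (hv U hU).trans (hw U hU).symm

theorem Rep.eq {v : ∀ U : Z.affineOpens, VF Z U} {D E : DK Z} (hv : Rep v D) (hw : Rep v E) :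
    D = E := by
  obtain ⟨U, hU, -⟩ := exists_affine_le (W := ⊤) (x := genericPoint Z) trivial
  exact (hv U hU).symm.trans (hw U hU)

theorem Rep.reg {v : ∀ U : Z.affineOpens, VF Z U} {D : DK Z} (hv : Rep v D) (x : Z) : Reg x D := by
  obtain ⟨U, hU, -⟩ := exists_affine_le (W := ⊤) (x := x) trivial
  rw [← hv U (gen_mem hU)]
  exact reg_ext _ _ hU

theorem Rep.related {v : ∀ U : Z.affineOpens, VF Z U} {D : DK Z} (hv : Rep v D)
    (U V : Z.affineOpens) (h : V.1 ≤ 𝟙 Z ⁻¹ᵁ U.1) : Related (𝟙 Z) h (v V) (v U) := by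
  by_cases hV : genericPoint Z ∈ V.1
  · exact (related_id_iff h hV (h hV) _ _).2 ((hv V hV).trans (hv U _).symm)
  · have := subsingleton_of_notMem hV
    exact fun a => Subsingleton.elim _ _

theorem exists_rep_of_related {v : ∀ U : Z.affineOpens, VF Z U}
    (hv : ∀ (U V : Z.affineOpens) (h : V.1 ≤ 𝟙 Z ⁻¹ᵁ U.1), Related (𝟙 Z) h (v V) (v U)) :
    ∃ D, Rep v D := by
  obtain ⟨U₀, hU₀, -⟩ := exists_affine_le (W := ⊤) (x := genericPoint Z) trivial
  refine ⟨ext hU₀ (v U₀), fun U hU => ?_⟩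
  obtain ⟨W, hW, hWU⟩ := exists_affine_le (W := U.1 ⊓ U₀.1) ⟨hU, hU₀⟩
  have i : W.1 ≤ 𝟙 Z ⁻¹ᵁ U.1 := hWU.trans inf_le_left
  have i₀ : W.1 ≤ 𝟙 Z ⁻¹ᵁ U₀.1 := hWU.trans inf_le_right
  rw [← (related_id_iff i hW hU _ _).1 (hv U W i), (related_id_iff i₀ hW hU₀ _ _).1 (hv U₀ W i₀)]

theorem Rep.add {v w : ∀ U : Z.affineOpens, VF Z U} {D E : DK Z} (hv : Rep v D) (hw : Rep w E) :
    Rep (v + w) (D + E) := fun U hU => by rw [Pi.add_apply, ext_add, hv, hw]

theorem Rep.smul {v : ∀ U : Z.affineOpens, VF Z U} {D : DK Z} (hv : Rep v D) (r : ℂ) :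
    Rep (r • v) (r • D) := fun U hU => by
  rw [Pi.smul_apply, ← algebraMap_smul Γ(Z, U.1), ext_smul, toK_algebraMap, hv, algebraMap_smul]

theorem Rep.lie {v w : ∀ U : Z.affineOpens, VF Z U} {D E : DK Z} (hv : Rep v D) (hw : Rep w E) :
    Rep (fun U => ⁅v U, w U⁆) ⁅D, E⁆ := fun U hU => by rw [ext_lie, hv, hw]

/-- A rational vector field is regular near the generic point. -/
theorem Chart.exists_reg (c : Chart F d) (E : DK Z) :
    ∃ W : Z.affineOpens, genericPoint Z ∈ W.1 ∧ ∀ x ∈ W.1, Reg x E := by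
  have h : IsOpen ((c.U.1 : Set Z) ∩ ⋂ i, {x | E (c.t i) ∈ O x}) :=
    c.U.1.isOpen.inter (isOpen_iInter_of_finite fun i => isOpen_mem_O _)
  obtain ⟨W, hW, hW'⟩ := exists_affine_le (W := ⟨_, h⟩) (x := genericPoint Z)
    ⟨c.hU, Set.mem_iInter.2 fun i => O_generic _⟩
  refine ⟨W, hW, fun x hx f hf => ?_⟩
  rw [c.expand E, der_sum_apply]
  exact sum_mem fun i _ => mul_mem (Set.mem_iInter.1 (hW' hx).2 i) (c.w_reg x (hW' hx).1 i f hf)

namespace Atlas

variable {A : Atlas F d}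

theorem isCt_iff_of_rep {v : ∀ U : Z.affineOpens, VF Z U} {D : DK Z} (hv : Rep v D) :
    A.IsCt D ↔ ∀ U w, w ∈ F.sec U → ⁅v U, w⁆ ∈ F.sec U := by
  set c := A.ch (genericPoint Z)
  rw [A.isCt_iff c]
  constructor
  · intro h U w hw
    refine mem_sec_of fun hU => ?_
    rw [A.mem_sec_iff hU _ c] at hw ⊢
    rw [ext_lie, hv]
    exact h _ hw
  · intro h E hE
    obtain ⟨W, hW, hW'⟩ := c.exists_reg E
    obtain ⟨w, rfl⟩ := exists_down hW hW'
    have h1 := h W w ((A.mem_sec_iff hW _ c).2 hE)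
    rwa [A.mem_sec_iff hW _ c, ext_lie, hv] at h1

theorem der_eq_zero [LocallyOfFiniteType (Z ↘ SpecC)] (A : Atlas F d) {D : DK Z} {W : Z.Opens}
    (hW : genericPoint Z ∈ W) (hD : ∀ y : A.Pt, y.x ∈ W → ∀ f ∈ O y.x, y.e.v (D f) = 0) :
    D = 0 := by
  ext f
  by_contra h0
  obtain ⟨x, ⟨⟨hxW, hxf⟩, hxu⟩, hx⟩ := exists_closed_mem
    ((W.isOpen.inter (isOpen_mem_O f)).inter (isOpen_isU (D f)))
    ⟨genericPoint Z, ⟨hW, O_generic _⟩, O_generic _, h0, O_generic _⟩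
  obtain ⟨y, rfl⟩ := exists_pt_of_closed (A := A) hx
  exact (y.e.unit hxu.mem).1 hxu (hD y hxW f hxf)

variable {g : Type} [LieRing g] [LieAlgebra ℂ g] [FiniteDimensional ℂ g] [LieAlgebra.IsSimple ℂ g]
  {P : A.R →ₗ[ℂ] A.R →ₗ[ℂ] A.R} {φ : g →ₗ[ℂ] A.R}

/-- The contact vector field of `φ a`. -/
noncomputable def hm (φ : g →ₗ[ℂ] A.R) (a : g) : DK Z := A.ham ((φ a).1.coeff 1)

omit [FiniteDimensional ℂ g] [LieAlgebra.IsSimple ℂ g] in
theorem reg_hm (a : g) (x : Z) : Reg x (hm φ a) := reg_ham (secAt_coeff _ 1 x)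

namespace Pt

variable (y : A.Pt)

theorem div_mem (r : A.R) : r.1.coeff 1 / A.g y.c ∈ O y.x := by
  have h := secAt_coeff r 1 y.x
  rwa [SecAt, pow_one] at h

theorem ev_one {f : K Z} (hf : f ∈ O y.x) : y.ev (monomial 1 (f * A.g y.c)) = y.e.v f * y.γ := by
  have h : f * A.g y.c / A.g y.c ^ 1 = f := by rw [pow_one, mul_div_cancel_right₀ _ (A.g_ne _)]
  rw [y.ev_monomial (by rw [SecAt, h]; exact hf), h, pow_one]

omit [FiniteDimensional ℂ g] [LieAlgebra.IsSimple ℂ g] in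
theorem p_one (hφ : IsLie P φ) (a : g) :
    y.p (φ a) = y.e.v ((φ a).1.coeff 1 / A.g y.c) * y.γ := by
  rw [p_apply, ← y.ev_one (y.div_mem _), div_mul_cancel₀ _ (A.g_ne _), ← eq_monomial (hφ.mem a)]

omit [FiniteDimensional ℂ g] [LieAlgebra.IsSimple ℂ g] in
theorem cD_hm (hφ : IsLie P φ) (b : g) (i : Fin d) :
    y.cD (hm φ b) i.succ = y.cb φ b i.succ := by
  have hs := y.div_mem (φ b)
  rw [cD, Fin.cons_succ, hm, ham_eq y.c, Chart.hv_t, Chart.cu, Matrix.vecMul, dotProduct,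
    y.e.sum _ fun a _ => mul_mem (y.c.jt_mem y.mem hs a) (y.c.N_mem y.mem a _), cb, Pi.smul_apply,
    smul_eq_mul, Matrix.vecMul, dotProduct, Finset.mul_sum]
  refine Finset.sum_congr rfl fun a _ => ?_
  rw [y.e.mul (y.c.jt_mem y.mem hs a) (y.c.N_mem y.mem a _), jet, eq_monomial (hφ.mem b), lf_one,
    y.ev_one (y.c.jt_mem y.mem hs a), coeff_monomial_same, n, Matrix.of_apply]
  have := y.hγ
  field_simp

theorem v_hm_ratio (hP : IsBr P) (hφ : IsLie P φ) {z : g}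
    (hz : ∀ a, y.p (φ a) = killingForm ℂ g a z) (b : g) (i : Fin (Module.finrank ℂ g))
    {j : Fin (Module.finrank ℂ g)} (hj : coord z j ≠ 0) :
    y.e.v (hm φ b (sg φ i / sg φ j)) =
      (coord ⁅z, b⁆ i * coord z j - coord z i * coord ⁅z, b⁆ j) / coord z j ^ 2 := by
  have h1 : ∑ a, y.cD (hm φ b) a * y.jet (C (sg φ i / sg φ j)) a =
      ∑ a, y.cb φ b a * y.jet (C (sg φ i / sg φ j)) a := by
    rw [Fin.sum_univ_succ, Fin.sum_univ_succ, jet_C_zero, mul_zero, mul_zero]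
    simp only [y.cD_hm hφ]
  rw [y.v_D (reg_hm b _) (((y.genAt_sg hφ hz j).2 hj).div_mem (secAt_sg i _)), h1,
    y.sum_jet_ratio hφ hz _ i hj, y.dj_cb hP hφ hz, y.dj_cb hP hφ hz, kil_dualB, kil_dualB,
    neg_lie, lie_skew]

omit [FiniteDimensional ℂ g] [LieAlgebra.IsSimple ℂ g] in
theorem v_θ_hm (hφ : IsLie P φ) (a : g) : y.e.v (y.c.θ (hm φ a)) = 0 ↔ y.p (φ a) = 0 := by
  rw [hm, ham_eq y.c, Chart.θ_hv, y.e.neg (y.div_mem _), y.p_one hφ, neg_eq_zero, mul_eq_zero,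
    or_iff_left y.hγ]

theorem v_D_eq_zero [CompactSpace Z] (h : A.IsAmple) (hφ : IsLie P φ) {z : g}
    (hz : ∀ a, y.p (φ a) = killingForm ℂ g a z) {D : DK Z} (hD : Reg y.x D)
    {j : Fin (Module.finrank ℂ g)} (hj : coord z j ≠ 0)
    (hi : ∀ i, y.e.v (D (sg φ i / sg φ j)) = 0) {f : K Z} (hf : f ∈ O y.x) : y.e.v (D f) = 0 := by
  have h2 : ∀ i, y.dj (Pi.single 0 1) (φ (dualB g i)) = coord z i := fun i => by
    rw [y.dj_single hφ, hz, kil_dualB]
  have h3 : y.cD D - (y.dj (y.cD D) (φ (dualB g j)) / coord z j) • Pi.single 0 1 = 0 := by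
    refine y.eq_zero_of_dj_dualB h hφ fun i => ?_
    have h4 := hi i
    rw [y.v_D hD (((y.genAt_sg hφ hz j).2 hj).div_mem (secAt_sg i _)),
      y.sum_jet_ratio hφ hz _ i hj, div_eq_zero_iff, or_iff_left (pow_ne_zero 2 hj)] at h4
    rw [dj_sub, dj_smul, h2]
    field_simp
    linear_combination h4
  rw [y.v_D hD hf, Fin.sum_univ_succ, jet_C_zero, mul_zero, zero_add]
  refine Finset.sum_eq_zero fun i _ => ?_
  have h5 := congrFun h3 i.succ
  have h6 : y.cD D i.succ = 0 := by simpa using h5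
  rw [h6, zero_mul]

theorem exists_coord_ne (h : A.IsAmple) (hφ : IsLie P φ) {z : g}
    (hz : ∀ a, y.p (φ a) = killingForm ℂ g a z) : ∃ b, coord z b ≠ 0 := by
  by_contra hcon
  push Not at hcon
  obtain ⟨k, hk, H, hH, hH'⟩ := cover_of_ample h hφ.surj y.x
  refine (y.genAt_Phi hφ hz hH).1 hH' ?_
  rw [show coord z = 0 from funext hcon, MvPolynomial.eval_zero, MvPolynomial.constantCoeff_eq]
  exact MvPolynomial.IsHomogeneous.coeff_eq_zero hH (by simpa using hk.ne)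

/-- A vector field which vanishes at the point on the functions of an affine neighbourhood. -/
theorem v_θ_of_toK {U : Z.affineOpens} (hx : y.x ∈ U.1) {D : DK Z} (hD : Reg y.x D)
    (h0 : ∀ a, y.e.v (D (toK U.1 (gen_mem hx) a)) = 0) : y.e.v (y.c.θ D) = 0 := by
  rw [y.v_θ hD]
  refine Finset.sum_eq_zero fun i _ => ?_
  obtain ⟨a, b, hb, hab⟩ := exists_frac U.2 hx (y.c.t_mem _ y.mem i)
  have hb' := (isU_toK hx (gen_mem hx) b).2 hb
  have h1 := congrArg (fun f => y.e.v (D f)) hab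
  have h2 := y.c.t_mem _ y.mem i
  simp only [Derivation.leibniz, smul_eq_mul] at h1
  rw [y.e.add (mul_mem h2 (hD _ hb'.mem)) (mul_mem hb'.mem (hD _ h2)), y.e.mul h2 (hD _ hb'.mem),
    y.e.mul hb'.mem (hD _ h2), h0, h0, mul_zero, zero_add] at h1
  rw [cD, Fin.cons_succ, (mul_eq_zero.1 h1).resolve_left ((y.e.unit hb'.mem).1 hb'), zero_mul]

end Pt

end Atlas

end Vale.Agent.P292Z
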